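import Vale.Agent.P188.H8.Mix

/-!
# P188, route B (ES): mixed brackets, scaling and maps
-/

open Finset Filter Topology Pointwise

universe u v

namespace Vale.Agent.P188.H8

open Vale.Agent.P188.H796
open Vale.Agent.P188.H615

section mixb

variable {N : Type u} [Group N] {d n : ℕ} {D : MB N d n} {A : Type v} [NormedRing A]
  [NormedAlgebra ℝ A] [FiniteDimensional ℝ A] {R : RD D A}

/-- Lie maps between the layers -/
theorem mx_map {G Go G' Go' : Set R.V} (φ : R.V →ₗ[ℝ] R.V)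
    (hφ : ∀ x y, φ ⁅x, y⁆ = ⁅φ x, φ y⁆) (hG : ∀ x ∈ G, φ x ∈ G') (hGo : ∀ x ∈ Go, φ x ∈ Go')
    (j : ℕ) : ∀ x ∈ mx G Go j, φ x ∈ mx G' Go' j := by
  have hn : ∀ j : ℕ, ∀ x ∈ nbk G j, φ x ∈ nbk G' j := by
    intro j
    induction j with
    | zero => exact hG
    | succ j ih =>
      have h2 : nbk G (j + 1) ⊆ φ ⁻¹' (nbk G' (j + 1)) := by
        refine convexHull_min ?_ ((convex_convexHull ℝ _).linear_preimage φ)
        rintro _ ⟨a, ha, b, hb, rfl⟩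
        change φ ⁅a, b⁆ ∈ nbk G' (j + 1)
        rw [hφ]
        exact lie_mem_nbk (hG a ha) (ih b hb)
      exact h2
  induction j with
  | zero => exact hGo
  | succ j ih =>
    have h2 : mx G Go (j + 1) ⊆ φ ⁻¹' (mx G' Go' (j + 1)) := by
      refine convexHull_min ?_ ((convex_convexHull ℝ _).linear_preimage φ)
      rintro _ (⟨a, ha, b, hb, rfl⟩ | ⟨a, ha, b, hb, rfl⟩)
      · change φ ⁅a, b⁆ ∈ mx G' Go' (j + 1)
        rw [hφ]
        exact lie_mem_mx (hG a ha) (ih b hb)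
      · change φ ⁅a, b⁆ ∈ mx G' Go' (j + 1)
        rw [hφ]
        exact lie_mem_mx' (hGo a ha) (hn j b hb)
    exact h2

theorem mnb_map {G Go G' Go' : Set R.V} (φ : R.V →ₗ[ℝ] R.V)
    (hφ : ∀ x y, φ ⁅x, y⁆ = ⁅φ x, φ y⁆) (hG : ∀ x ∈ G, φ x ∈ G') (hGo : ∀ x ∈ Go, φ x ∈ Go') :
    ∀ x ∈ mnb G Go, φ x ∈ mnb G' Go' := by
  rintro _ ⟨x, hx, rfl⟩
  exact ⟨fun i => φ (x i), fun i => mx_map φ hφ hG hGo i _ (hx i), by rw [map_sum]⟩

theorem mnb_mono {G Go G' Go' : Set R.V} (hG : G ⊆ G') (hGo : Go ⊆ Go') :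
    mnb G Go ⊆ mnb G' Go' := by
  intro x hx
  exact mnb_map LinearMap.id (fun _ _ => rfl) (fun x hx => hG hx) (fun x hx => hGo hx) x hx

/-- scaling of the layers -/
theorem mx_smul_sub {G Go : Set R.V} (h : CSy G) (ho : CSy Go) (c : ℝ) (j : ℕ) :
    mx (c • G) (c • Go) j ⊆ (c ^ (j + 1)) • mx G Go j := by
  induction j with
  | zero => rw [zero_add, pow_one]; exact le_rfl
  | succ j ih =>
    refine convexHull_min ?_ ((csy_mx h ho (j + 1)).conv.smul _)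
    rintro _ (⟨x, hx, y, hy, rfl⟩ | ⟨x, hx, y, hy, rfl⟩)
    · obtain ⟨x', hx', rfl⟩ := hx
      obtain ⟨y', hy', rfl⟩ := ih hy
      refine ⟨⁅x', y'⁆, lie_mem_mx hx' hy', ?_⟩
      simp only
      rw [smul_lie, lie_smul, smul_smul]
      congr 1
      ring
    · obtain ⟨x', hx', rfl⟩ := hx
      rw [nbk_smul c j] at hy
      obtain ⟨y', hy', rfl⟩ := hy
      refine ⟨⁅x', y'⁆, lie_mem_mx' hx' hy', ?_⟩
      simp only
      rw [smul_lie, lie_smul, smul_smul]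
      congr 1
      ring

theorem mnb_smul_sub {G Go : Set R.V} (h : CSy G) (ho : CSy Go) {c : ℝ} (hc0 : 0 ≤ c)
    (hc1 : c ≤ 1) : mnb (c • G) (c • Go) ⊆ c • mnb G Go := by
  rintro _ ⟨x, hx, rfl⟩
  have h1 : ∀ i : Fin R.m, x i ∈ c • mx G Go i := fun i =>
    (csy_mx h ho i).mem_mono (by positivity) (by
      rw [pow_succ]
      exact mul_le_of_le_one_left hc0 (pow_le_one₀ hc0 hc1)) (mx_smul_sub h ho c i (hx i))
  choose y hy hxy using h1
  refine ⟨∑ i, y i, ⟨y, hy, rfl⟩, ?_⟩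
  simp only
  rw [smul_sum]
  exact sum_congr rfl fun i _ => hxy i

/-- mixed brackets stay in an ideal containing `Go` -/
theorem mnb_le_ideal {G Go : Set R.V} (I : Submodule ℝ R.V) (hI : ∀ x : R.V, ∀ y ∈ I, ⁅x, y⁆ ∈ I)
    (hGo : ∀ x ∈ Go, x ∈ I) : ∀ x ∈ mnb G Go, x ∈ I := by
  have key : ∀ j : ℕ, mx G Go j ⊆ (I : Set R.V) := by
    intro j
    induction j with
    | zero => exact fun x hx => hGo x hx
    | succ j ih =>
      refine convexHull_min ?_ I.convex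
      rintro _ (⟨x, hx, y, hy, rfl⟩ | ⟨x, hx, y, hy, rfl⟩)
      · exact hI _ _ (ih hy)
      · have h1 : ⁅x, y⁆ = -⁅y, x⁆ := (lie_skew x y).symm
        rw [SetLike.mem_coe, h1]
        exact I.neg_mem (hI _ _ (hGo x hx))
  rintro _ ⟨x, hx, rfl⟩
  exact I.sum_mem fun i _ => key i (hx i)

end mixb

end Vale.Agent.P188.H8
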