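import Vale.Agent.P188.H8.Cover
import Vale.Agent.P188.H8.MixB
import Vale.Agent.P188.H615.GeoC
import Vale.Agent.P188.H131.GeoNu
import Vale.Agent.P188.H532.Geo

/-!
# P188, route B (ES): the pure elements and the packing function over the real model

`NE Rd B ρ ⊆ E = N_R` natural boxes, `US M p σ` natural boxes of the group generated by the letters
in `p`, `U0 o μ r` = letters of the ray `o` (size `exp (τ μ)`) and neutral letters (size `exp r`),
`Uo o μ r` = elements of `U0` with at least one letter of the ray `o` in each bracket.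
-/

open Finset Filter Topology Pointwise MeasureTheory

set_option linter.all false

namespace Vale.Agent.P188.H8

open Vale.Agent.P188.H796 Vale.Agent.P188.H615 Vale.Agent.P188.H131 Vale.Agent.P188.Z1
open Vale.P188.H532 (sh bump exto)

section geop

variable {Γ : Type} [Group Γ] {k : ℕ} {η : Γ →* Multiplicative (Fin k → ℤ)} {d n : ℕ}
  {D : MB η.ker d n} {M : RModel D.S Γ D.R.V k} {J : Type} [DecidableEq J] (Rd : RayD M J)

/-! ### pure boxes -/

variable (M) in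
/-- boxes of the group generated by the letters in `p` -/
def US (p : M.ι → Prop) (σ : M.ι → ℝ) : Set M.NR :=
  {e | ∃ v ∈ nb (LB M.X (on p σ)), D.ex v = (e : D.S)}

/-- letters of the ray `o` and neutral letters -/
def po (o : Option J) (a : M.ι) : Prop := Rd.ray a = o ∨ Rd.ray a = none

/-- the sizes of the letters -/
noncomputable def so (o : Option J) (μ r : ℝ) : M.ι → ℝ := Rd.sz (exto o μ r)

/-- the ray `o` and the neutral letters -/
def U0 (o : Option J) (μ r : ℝ) : Set M.NR := US M (po Rd o) (so Rd o μ r)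

/-- elements of the ray `o` -/
def Uo : Option J → ℝ → ℝ → Set M.NR
  | none => fun μ r => U0 Rd none μ r
  | some i => fun μ r => {e | ∃ v ∈ mnb (LB M.X (on (po Rd (some i)) (so Rd (some i) μ r)))
      (LB M.X (on (fun a => Rd.ray a = some i) (so Rd (some i) μ r))), D.ex v = (e : D.S)}

/-- the natural boxes in `N_R` -/
def NE (B : M.NatBox) (ρ : Option J → ℝ) : Set M.NR := {e | (e : D.S) ∈ Rd.Nb B ρ}

variable {Rd} {B : M.NatBox} (hB : B.Bx = NBx D M.X)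

include hB in
theorem mem_NE {ρ : Option J → ℝ} {e : M.NR} :
    e ∈ NE Rd B ρ ↔ ∃ v ∈ nb (LB M.X (Rd.sz ρ)), D.ex v = (e : D.S) := by
  unfold NE RayD.Nb
  rw [Set.mem_ofPred_eq, hB, NBx, Gb_eq_LB]
  rfl

theorem so_pos (o : Option J) (μ r : ℝ) (a : M.ι) : 0 < so Rd o μ r a := Rd.sz_pos _ a

theorem US_mono {p : M.ι → Prop} {σ σ' : M.ι → ℝ} (h0 : ∀ a, 0 ≤ σ a)
    (h : ∀ a, p a → σ a ≤ σ' a) : US M p σ ⊆ US M p σ' := by
  rintro e ⟨v, hv, he⟩
  refine ⟨v, nb_mono (LB_mono _ (on_nonneg h0) fun i => ?_) hv, he⟩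
  unfold on
  split_ifs with hp
  · exact h i hp
  · exact le_rfl

theorem on_congr {ι : Type} {p : ι → Prop} {σ σ' : ι → ℝ} (h : ∀ a, p a → σ a = σ' a) :
    on p σ = on p σ' := by
  funext a
  unfold on
  split_ifs with hp
  · exact h a hp
  · rfl

theorem US_congr {p : M.ι → Prop} {σ σ' : M.ι → ℝ} (h : ∀ a, p a → σ a = σ' a) :
    US M p σ = US M p σ' := by
  unfold US
  rw [on_congr h]

/-- the sizes on the letters of `o` -/
theorem so_bump (o : Option J) (ρ : Option J → ℝ) (l c : ℝ) (a : M.ι) (ha : po Rd o a) :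
    Rd.sz (bump ρ o l c) a = so Rd o (ρ o + l) (ρ none) a := by
  unfold so RayD.sz
  congr 2
  rcases hr : Rd.ray a with _ | j
  · rcases o with _ | i
    · simp [bump, exto]
    · simp [bump, exto]
  · rcases ha with ha | ha
    · rw [hr] at ha
      subst ha
      simp [bump, exto]
    · rw [hr] at ha; cases ha

theorem so_le {o : Option J} {μ μ' r r' : ℝ} (hμ : μ ≤ μ') (hr : r ≤ r') (a : M.ι)
    (ha : po Rd o a) : so Rd o μ r a ≤ so Rd o μ' r' a := by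
  unfold so RayD.sz
  refine Real.exp_le_exp.2 (mul_le_mul_of_nonneg_left ?_ (Rd.τ_pos a).le)
  rcases hra : Rd.ray a with _ | j
  · rcases o with _ | i
    · simpa [exto] using hμ
    · simpa [exto] using hr
  · rcases ha with ha | ha
    · rw [hra] at ha
      subst ha
      simpa [exto] using hμ
    · rw [hra] at ha; cases ha

theorem U0_mono {o : Option J} {μ μ' r r' : ℝ} (hμ : μ ≤ μ') (hr : r ≤ r') :
    U0 Rd o μ r ⊆ U0 Rd o μ' r' :=
  US_mono (fun a => (so_pos o μ r a).le) fun a ha => so_le hμ hr a ha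

theorem one_mem_US (p : M.ι → Prop) (σ : M.ι → ℝ) : (1 : M.NR) ∈ US M p σ :=
  ⟨0, (csy_nb (csy_LB M.X _)).zero, by rw [D.ex_zero]; rfl⟩

theorem one_mem_U0 (o : Option J) (μ r : ℝ) : (1 : M.NR) ∈ U0 Rd o μ r := one_mem_US _ _

theorem inv_mem_US {p : M.ι → Prop} {σ : M.ι → ℝ} {e : M.NR} (h : e ∈ US M p σ) :
    e⁻¹ ∈ US M p σ := by
  obtain ⟨v, hv, he⟩ := h
  refine ⟨-v, (csy_nb (csy_LB M.X _)).neg v hv, ?_⟩
  change D.inN (D.R.Ex (-v)) = _
  rw [D.R.Ex_neg, map_inv]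
  change (D.ex v)⁻¹ = _
  rw [he]
  rfl

include hB in
theorem US_NE {p : M.ι → Prop} {σ : M.ι → ℝ} {ρ : Option J → ℝ} (h0 : ∀ a, 0 ≤ σ a)
    (h : ∀ a, p a → σ a ≤ Rd.sz ρ a) : US M p σ ⊆ NE Rd B ρ := by
  rintro e ⟨v, hv, he⟩
  rw [mem_NE hB]
  refine ⟨v, nb_mono (LB_mono _ (on_nonneg h0) fun i => ?_) hv, he⟩
  unfold on
  split_ifs with hp
  · exact h i hp
  · exact (Rd.sz_pos ρ i).le

include hB in
theorem U0_N (o : Option J) (μ r : ℝ) : U0 Rd o μ r ⊆ NE Rd B (exto o μ r) :=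
  US_NE hB (fun a => (so_pos o μ r a).le) fun a _ => le_rfl

include hB in
/-- field `U_N` -/
theorem Uo_N (o : Option J) (μ r : ℝ) : Uo Rd o μ r ⊆ NE Rd B (exto o μ r) := by
  rcases o with _ | i
  · exact U0_N hB none μ r
  · rintro e ⟨v, hv, he⟩
    rw [mem_NE hB]
    have h1 : LB M.X (on (fun a => Rd.ray a = some i) (so Rd (some i) μ r)) ⊆
        LB M.X (on (po Rd (some i)) (so Rd (some i) μ r)) := by
      refine LB_mono _ (on_nonneg fun a => (so_pos _ _ _ a).le) fun a => ?_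
      unfold on
      by_cases ha : Rd.ray a = some i
      · rw [if_pos ha, if_pos (show po Rd (some i) a from Or.inl ha)]
      · rw [if_neg ha]
        split_ifs
        · exact (so_pos _ _ _ a).le
        · exact le_rfl
    refine ⟨v, nb_mono (LB_mono _ (on_nonneg fun a => (so_pos _ _ _ a).le) fun a => ?_)
      (mnb_sub h1 hv), he⟩
    exact on_le (fun a => (so_pos _ _ _ a).le) a

/-- field `U_ls` -/
theorem Uo_ls (h : NatHyp M) (ρ : Option J → ℝ) (a : M.ι) (x : ℝ) (ha : Rd.ray a ≠ none)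
    (hx : |x| ≤ 1) (e : M.NR) (he : (e : D.S) = M.ex ((Rd.sz ρ a * x) • M.X a)) :
    e ∈ Uo Rd (Rd.ray a) (ρ (Rd.ray a)) (ρ none) := by
  classical
  rcases hr : Rd.ray a with _ | i
  · exact absurd hr ha
  · refine ⟨(Rd.sz ρ a * x) • M.X a, ?_, by rw [← h.hex, he]⟩
    have h1 : (Rd.sz ρ a * x) • M.X a ∈
        LB M.X (on (fun a => Rd.ray a = some i) (so Rd (some i) (ρ (some i)) (ρ none))) := by
      have h2 : (Rd.sz ρ a * x) • M.X a =
          ∑ b, (if b = a then Rd.sz ρ a * x else 0) • M.X b := by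
        rw [Finset.sum_eq_single a]
        · rw [if_pos rfl]
        · intro b _ hb; rw [if_neg hb, zero_smul]
        · intro h; exact absurd (mem_univ _) h
      rw [h2]
      refine mem_LB_of_le M.X _ fun b => ?_
      by_cases hb : b = a
      · subst hb
        rw [if_pos rfl]
        unfold on
        rw [if_pos hr, abs_mul, abs_of_pos (Rd.sz_pos ρ b)]
        refine (mul_le_of_le_one_right (Rd.sz_pos ρ b).le hx).trans (le_of_eq ?_)
        unfold so RayD.sz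
        rw [hr]
        simp [exto]
      · rw [if_neg hb, abs_zero]
        exact on_nonneg (fun a => (so_pos _ _ _ a).le) b
    exact mx_sub_mnb (csy_LB _ _) (csy_LB _ _) (⟨0, D.R.hm0⟩ : Fin D.R.m) h1

/-! ### measure -/

theorem nu_mp (g : M.NR) : MeasurePreserving (fun x => x * g) M.nu M.nu := by
  haveI := M.nu_mm
  haveI := M.nu_right
  exact measurePreserving_mul_right M.nu g

theorem nu_NE (B : M.NatBox) (ρ : Option J → ℝ) : M.nu (NE Rd B ρ) = M.μ (Rd.Nb B ρ) :=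
  M.nu_preimage fun x hx => B.sub _ x hx

theorem meas_NE (B : M.NatBox) (ρ : Option J → ℝ) : MeasurableSet (NE Rd B ρ) :=
  measurable_subtype_coe (Rd.Nb_meas B ρ)

theorem NE_mono (B : M.NatBox) {ρ ρ' : Option J → ℝ} (h : ∀ j, ρ j ≤ ρ' j) :
    NE Rd B ρ ⊆ NE Rd B ρ' := fun _ hx => Rd.Nb_mono B h hx

theorem one_mem_NE (B : M.NatBox) (ρ : Option J → ℝ) : (1 : M.NR) ∈ NE Rd B ρ := Rd.Nb_one B ρ

theorem inv_mem_NE {B : M.NatBox} {ρ : Option J → ℝ} {x : M.NR} (h : x ∈ NE Rd B ρ) :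
    x⁻¹ ∈ NE Rd B ρ := Rd.Nb_inv B h

theorem NE_ne (B : M.NatBox) (ρ : Option J → ℝ) : (NE Rd B ρ).Nonempty := ⟨1, one_mem_NE B ρ⟩

theorem nu_NE_pos (B : M.NatBox) (ρ : Option J → ℝ) : M.nu (NE Rd B ρ) ≠ 0 := by
  rw [nu_NE]; exact (Rd.Nb_pos B ρ).ne'

theorem nu_NE_top (B : M.NatBox) (ρ : Option J → ℝ) : M.nu (NE Rd B ρ) ≠ ⊤ := by
  rw [nu_NE]; exact (Rd.Nb_top B ρ).ne

/-- packings are finite -/
theorem bdd_NE (B : M.NatBox) (ρ ρ' : Option J → ℝ) :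
    BddAbove (PK (NE Rd B ρ) (NE Rd B ρ')) := by
  obtain ⟨C, hC, hmul⟩ := Rd.Nb_mul B
  refine PK_bdd (ν := M.nu) nu_mp (W := NE Rd B fun j => max (ρ j) (ρ' j) + C) (meas_NE B ρ)
    (fun n hn u hu => ?_) (nu_NE_pos B ρ) (nu_NE_top B _)
  exact hmul C le_rfl (fun j => max (ρ j) (ρ' j)) _
    (Rd.Nb_mono B (fun j => le_max_left _ _) hn) _ (Rd.Nb_mono B (fun j => le_max_right _ _) hu)

include hB in
theorem bdd_US (p : M.ι → Prop) {σ : M.ι → ℝ} (h0 : ∀ a, 0 ≤ σ a) (ρ : Option J → ℝ) :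
    BddAbove (PK (NE Rd B ρ) (US M p σ)) := by
  obtain ⟨t0, T0, ht0, hT0, hτ⟩ := Rd.exists_τ
  -- a large box
  have h1 : ∃ x : ℝ, 0 ≤ x ∧ ∀ a, σ a ≤ Real.exp (t0 * x) := by
    refine ⟨(∑ a, σ a) / t0, div_nonneg (sum_nonneg fun a _ => h0 a) ht0.le, fun a => ?_⟩
    rw [mul_div_cancel₀ _ ht0.ne']
    have h2 : σ a ≤ ∑ a, σ a := single_le_sum (fun a _ => h0 a) (mem_univ a)
    exact h2.trans (by linarith [Real.add_one_le_exp (∑ a, σ a)])
  obtain ⟨x, hx, h1⟩ := h1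
  refine PK_bdd_mono le_rfl ?_ (bdd_NE B ρ fun _ => x)
  refine US_NE hB h0 fun a _ => (h1 a).trans (Real.exp_le_exp.2 ?_)
  exact mul_le_mul_of_nonneg_right (hτ a).1 hx

include hB in
theorem bdd_U0 (o : Option J) (μ r : ℝ) (ρ : Option J → ℝ) :
    BddAbove (PK (NE Rd B ρ) (U0 Rd o μ r)) :=
  bdd_US hB _ (fun a => (so_pos o μ r a).le) ρ

/-! ### change of the sizes -/

/-- covering of pure boxes by right translates -/
theorem cover_US (h : NatHyp M) (p : M.ι → Prop) (C' : ℝ) (hC' : 1 ≤ C') : ∃ n : ℕ, ∀ σ : M.ι → ℝ,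
    (∀ a, 0 < σ a) → ∃ F : Finset M.NR, F.card ≤ n ∧
      ∀ u ∈ US M p (fun a => C' * σ a), ∃ f ∈ F, u * f⁻¹ ∈ US M p σ := by
  classical
  obtain ⟨n, hn⟩ := exists_cover D.R M.X p C' hC'
  refine ⟨n, fun σ hσ => ?_⟩
  obtain ⟨F, hF1, -, hF2⟩ := hn σ (fun a => (hσ a).le) fun a _ => hσ a
  have hη : ∀ x : D.R.NR, D.inN x ∈ M.NR := by
    intro x
    rw [M.mem_NR]
    have h1 : D.inN x = M.ex (D.R.Lo x) := by
      rw [h.hex]
      change _ = D.inN (D.R.Ex (D.R.Lo x))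
      rw [D.R.Ex_Lo]
    rw [h1]
    exact M.η_ex _
  let g : PG M.X p → M.NR := fun f => ⟨D.inN (f : D.R.NR), hη _⟩
  refine ⟨F.image g, card_image_le.trans hF1, fun u hu => ?_⟩
  obtain ⟨v, hv, hvu⟩ := hu
  have hvp : v ∈ pu M.X p := nb_on_le M.X p _ hv
  obtain ⟨f, hf, hfu⟩ := hF2 (toPG (⟨v, hvp⟩ : pu M.X p)) (by
    show D.R.Lo (D.R.Ex v) ∈ nb (LB M.X (on p fun a => C' * σ a))
    rw [D.R.Lo_Ex]; exact hv)
  refine ⟨g f, mem_image_of_mem g hf, D.R.Lo ((toPG (⟨v, hvp⟩ : pu M.X p) * f⁻¹ : PG M.X p) : D.R.NR),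
    hfu, ?_⟩
  change D.inN (D.R.Ex (D.R.Lo _)) = _
  rw [D.R.Ex_Lo, Subgroup.coe_mul, Subgroup.coe_inv, map_mul, map_inv]
  have h1 : D.inN ((toPG (⟨v, hvp⟩ : pu M.X p) : PG M.X p) : D.R.NR) = (u : D.S) := hvu
  rw [h1]
  rfl

/-- change of the sizes by a constant factor -/
theorem pkn_US (h : NatHyp M) (hB : B.Bx = NBx D M.X) (p : M.ι → Prop) (C' : ℝ) (hC' : 1 ≤ C') :
    ∃ n : ℕ, 1 ≤ n ∧ ∀ σ : M.ι → ℝ, (∀ a, 0 < σ a) → ∀ ρ : Option J → ℝ,
      pkn (NE Rd B ρ) (US M p fun a => C' * σ a) ≤ n * pkn (NE Rd B ρ) (US M p σ) := by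
  obtain ⟨n, hn⟩ := cover_US h p C' hC'
  refine ⟨n + 1, by omega, fun σ hσ ρ => ?_⟩
  obtain ⟨F, hF, hF2⟩ := hn σ hσ
  refine (pkn_cover F hF2 (bdd_US hB p (fun a => (hσ a).le) ρ)).trans ?_
  exact Nat.mul_le_mul_right _ (by omega)

variable [Fintype J]

theorem so_add {t0 T0 : ℝ} (hτ : ∀ a, t0 ≤ Rd.τ a ∧ Rd.τ a ≤ T0) (o : Option J) (μ r x : ℝ)
    (hx : 0 ≤ x) (a : M.ι) (ha : po Rd o a) :
    so Rd o (μ + x) (r + x) a ≤ Real.exp (T0 * x) * so Rd o μ r a := by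
  have h1 : exto o (μ + x) (r + x) (Rd.ray a) = exto o μ r (Rd.ray a) + x := by
    rcases hr : Rd.ray a with _ | j
    · rcases o with _ | i <;> simp [exto]
    · rcases ha with ha | ha
      · rw [hr] at ha; subst ha; simp [exto]
      · rw [hr] at ha; cases ha
  unfold so RayD.sz
  rw [h1, ← Real.exp_add, Real.exp_le_exp, mul_add]
  have := mul_le_mul_of_nonneg_right (hτ a).2 hx
  linarith

/-- change of the sizes by an exponential factor -/
theorem pkn_exp (h : NatHyp M) (hB : B.Bx = NBx D M.X) : ∃ C : ℝ, 0 ≤ C ∧ ∀ (o : Option J)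
    (μ r x : ℝ), 0 ≤ x → ∀ ρ : Option J → ℝ,
      (pkn (NE Rd B ρ) (U0 Rd o (μ + x) (r + x)) : ℝ) ≤
        Real.exp (C * (1 + x)) * pkn (NE Rd B ρ) (U0 Rd o μ r) := by
  classical
  obtain ⟨t0, T0, ht0, hT0, hτ⟩ := Rd.exists_τ
  have h1 : ∀ o : Option J, ∃ n : ℕ, 1 ≤ n ∧ ∀ σ : M.ι → ℝ, (∀ a, 0 < σ a) → ∀ ρ : Option J → ℝ,
      pkn (NE Rd B ρ) (US M (po Rd o) fun a => Real.exp (T0 * 1) * σ a) ≤
        n * pkn (NE Rd B ρ) (US M (po Rd o) σ) := fun o =>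
    pkn_US h hB (po Rd o) _ (Real.one_le_exp (by positivity))
  choose n hn1 hn using h1
  set K : ℝ := ∑ o, (n o : ℝ) with hK
  have hK1 : ∀ o, (n o : ℝ) ≤ K := fun o =>
    single_le_sum (f := fun o => (n o : ℝ)) (fun _ _ => Nat.cast_nonneg _) (mem_univ o)
  have hK0 : 1 ≤ K := le_trans (by exact_mod_cast hn1 none) (hK1 none)
  refine ⟨Real.log K, Real.log_nonneg hK0, fun o μ r x hx ρ => ?_⟩
  have hit : ∀ m : ℕ, (pkn (NE Rd B ρ) (U0 Rd o (μ + m) (r + m)) : ℝ) ≤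
      K ^ m * pkn (NE Rd B ρ) (U0 Rd o μ r) := by
    intro m
    induction m with
    | zero => simp
    | succ m ih =>
      have h2 : U0 Rd o (μ + (m + 1 : ℕ)) (r + (m + 1 : ℕ)) ⊆
          US M (po Rd o) fun a => Real.exp (T0 * 1) * so Rd o (μ + m) (r + m) a := by
        refine US_mono (fun a => (so_pos _ _ _ a).le) fun a ha => ?_
        have := so_add hτ o (μ + m) (r + m) 1 zero_le_one a ha
        push_cast
        rw [← add_assoc, ← add_assoc]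
        exact this
      have h3 : pkn (NE Rd B ρ) (U0 Rd o (μ + (m + 1 : ℕ)) (r + (m + 1 : ℕ))) ≤
          n o * pkn (NE Rd B ρ) (U0 Rd o (μ + m) (r + m)) :=
        (pkn_mono le_rfl h2 (bdd_US hB _ (fun a => (mul_pos (Real.exp_pos _)
          (so_pos _ _ _ a)).le) ρ)).trans (hn o _ (so_pos _ _ _) ρ)
      have h4 : (pkn (NE Rd B ρ) (U0 Rd o (μ + (m + 1 : ℕ)) (r + (m + 1 : ℕ))) : ℝ) ≤
          n o * pkn (NE Rd B ρ) (U0 Rd o (μ + m) (r + m)) := by exact_mod_cast h3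
      refine h4.trans ?_
      rw [pow_succ, mul_comm (K ^ m), mul_assoc]
      exact mul_le_mul (hK1 o) ih (Nat.cast_nonneg _) (by linarith)
  have hxn : x ≤ (⌈x⌉₊ : ℝ) := Nat.le_ceil x
  have h2 : pkn (NE Rd B ρ) (U0 Rd o (μ + x) (r + x)) ≤
      pkn (NE Rd B ρ) (U0 Rd o (μ + ⌈x⌉₊) (r + ⌈x⌉₊)) :=
    pkn_mono le_rfl (U0_mono (by linarith) (by linarith)) (bdd_U0 hB o _ _ ρ)
  have h3 : (pkn (NE Rd B ρ) (U0 Rd o (μ + x) (r + x)) : ℝ) ≤
      pkn (NE Rd B ρ) (U0 Rd o (μ + ⌈x⌉₊) (r + ⌈x⌉₊)) := by exact_mod_cast h2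
  refine h3.trans ((hit _).trans (mul_le_mul_of_nonneg_right ?_ (Nat.cast_nonneg _)))
  rw [← Real.rpow_natCast, Real.rpow_def_of_pos (by linarith), Real.exp_le_exp]
  have h4 : (⌈x⌉₊ : ℝ) ≤ 1 + x := by linarith [Nat.ceil_lt_add_one hx]
  exact mul_le_mul_of_nonneg_left h4 (Real.log_nonneg hK0)

end geop

end Vale.Agent.P188.H8
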