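import Vale.Agent.P188.H8.GeoP

/-!
# P188, route B (ES): the packing function `H` and the fields `H_sh`, `cov`, `sep`
-/

open Finset Filter Topology Pointwise MeasureTheory

set_option linter.all false

namespace Vale.Agent.P188.H8

open Vale.Agent.P188.H796 Vale.Agent.P188.H615 Vale.Agent.P188.H131 Vale.Agent.P188.Z1
open Vale.P188.H532 (sh bump exto)

theorem one_le_pkn {E : Type*} [Group E] {K U : Set E} (h1 : (1 : E) ∈ U)
    (hb : BddAbove (PK K U)) : 1 ≤ pkn K U := by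
  classical
  have := le_pkn hb (X := {1}) (fun x hx => by
    rw [Finset.mem_singleton] at hx; rw [hx]; exact h1) (by
    intro x hx y hy hxy
    rw [Finset.mem_singleton] at hx hy
    exact absurd (hx.trans hy.symm) hxy)
  simpa using this

section geoq

variable {Γ : Type} [Group Γ] {k : ℕ} {η : Γ →* Multiplicative (Fin k → ℤ)} {d n : ℕ}
  {D : MB η.ker d n} {M : RModel D.S Γ D.R.V k} {J : Type} [DecidableEq J] (Rd : RayD M J)

/-- **the packing function** -/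
noncomputable def Hp (B : M.NatBox) (o : Option J) (ρ : Option J → ℝ) (l : ℝ) : ℝ :=
  Real.log (pkn (NE Rd B ρ) (U0 Rd o (ρ o + l) (ρ none)))

variable {Rd} {B : M.NatBox} (hB : B.Bx = NBx D M.X)

include hB in
theorem one_le_pkn' (o : Option J) (μ r : ℝ) (ρ : Option J → ℝ) :
    (1 : ℝ) ≤ pkn (NE Rd B ρ) (U0 Rd o μ r) := by
  exact_mod_cast one_le_pkn (one_mem_U0 o μ r) (bdd_U0 hB o μ r ρ)

include hB in
theorem exp_Hp (o : Option J) (ρ : Option J → ℝ) (l : ℝ) :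
    Real.exp (Hp Rd B o ρ l) = pkn (NE Rd B ρ) (U0 Rd o (ρ o + l) (ρ none)) :=
  Real.exp_log (by linarith [one_le_pkn' (Rd := Rd) hB o (ρ o + l) (ρ none) ρ])

include hB in
theorem Hp_nonneg (o : Option J) (ρ : Option J → ℝ) (l : ℝ) : 0 ≤ Hp Rd B o ρ l :=
  Real.log_nonneg (one_le_pkn' hB o _ _ ρ)

/-- change of the box in the packing number -/
theorem pkn_box (Rd : RayD M J) (B : M.NatBox) : ∃ C : ℝ, 0 ≤ C ∧ ∀ (ρ ρ' : Option J → ℝ) (x : ℝ), 0 ≤ x →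
    (∀ j, ρ' j ≤ ρ j + x) → ∀ U : Set M.NR, BddAbove (PK (NE Rd B ρ) U) →
      BddAbove (PK (NE Rd B ρ') U) →
      (pkn (NE Rd B ρ) U : ℝ) ≤ Real.exp (C * (1 + x)) * pkn (NE Rd B ρ') U := by
  obtain ⟨C1, hC1, hmul⟩ := Rd.Nb_mul B
  obtain ⟨C2, hC2, hdbl⟩ := Rd.Nb_dbl B
  refine ⟨C2 * (1 + 2 * C1), by positivity, fun ρ ρ' x hx hρ U hb hb' => ?_⟩
  have h1 := pkn_change (ν := M.nu) nu_mp (K := NE Rd B ρ) (K' := NE Rd B ρ') (U := U)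
    (W := NE Rd B fun j => ρ j + (x + 2 * C1)) (meas_NE B ρ) (NE_ne B ρ')
    (fun a ha b hb c hc => by
      have e1 : b⁻¹ ∈ NE Rd B fun j => ρ j + x := NE_mono B hρ (inv_mem_NE hb)
      have e2 : c ∈ NE Rd B fun j => ρ j + x := NE_mono B hρ hc
      have e3 := hmul C1 le_rfl (fun j => ρ j + x) _ e1 _ e2
      have e4 := hmul C1 le_rfl (fun j => ρ j + x + C1) _
        (NE_mono B (fun j => by linarith) ha) _ e3
      refine NE_mono B (fun j => ?_) e4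
      linarith) hb hb' (meas_NE B _)
  rw [nu_NE, nu_NE] at h1
  have h2 := hdbl C2 le_rfl ρ (x + 2 * C1) (by positivity)
  have h3 : (pkn (NE Rd B ρ) U : ENNReal) * M.μ (Rd.Nb B ρ) ≤
      (ENNReal.ofReal (Real.exp (C2 * (1 + 2 * C1) * (1 + x))) * pkn (NE Rd B ρ') U) *
        M.μ (Rd.Nb B ρ) := by
    refine h1.trans ?_
    rw [mul_comm (ENNReal.ofReal _), mul_assoc]
    refine mul_le_mul_right (h2.trans (mul_le_mul_left (ENNReal.ofReal_le_ofReal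
      (Real.exp_le_exp.2 ?_)) _)) _
    rw [mul_assoc]
    refine mul_le_mul_of_nonneg_left ?_ hC2
    nlinarith
  have h4 := (ENNReal.mul_le_mul_iff_left (Rd.Nb_pos B ρ).ne' (Rd.Nb_top B ρ).ne).1 h3
  have h5 : ENNReal.ofReal (Real.exp (C2 * (1 + 2 * C1) * (1 + x))) * (pkn (NE Rd B ρ') U : ENNReal)
      = ENNReal.ofReal (Real.exp (C2 * (1 + 2 * C1) * (1 + x)) * pkn (NE Rd B ρ') U) := by
    rw [ENNReal.ofReal_mul (Real.exp_pos _).le, ENNReal.ofReal_natCast]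
  rw [h5, ← ENNReal.ofReal_natCast, ENNReal.ofReal_le_ofReal_iff (by positivity)] at h4
  exact h4

include hB in
/-- **field `H_sh`** -/
theorem Hp_sh [Fintype J] (h : NatHyp M) : ∃ C0 : ℝ, 0 ≤ C0 ∧ ∀ C : ℝ, C0 ≤ C →
    ∀ (o : Option J) (ρ ρ' : Option J → ℝ) (l r : ℝ), 0 ≤ r → (∀ j, |ρ' j - ρ j| ≤ r) →
      Hp Rd B o ρ' l ≤ Hp Rd B o ρ l + C * (1 + r) := by
  obtain ⟨C1, hC1, h1⟩ := pkn_box Rd B
  obtain ⟨C2, hC2, h2⟩ := pkn_exp (Rd := Rd) h hB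
  refine ⟨C1 + C2, by positivity, fun C hC o ρ ρ' l r hr hρ => ?_⟩
  have e1 : ∀ j, ρ j ≤ ρ' j + r := fun j => by linarith [neg_le_of_abs_le (hρ j)]
  have e2 : ∀ j, ρ' j ≤ ρ j + r := fun j => by linarith [le_of_abs_le (hρ j)]
  have h3 := h1 ρ' ρ r hr e1 _ (bdd_U0 hB o (ρ' o + l) (ρ' none) ρ') (bdd_U0 hB o _ _ ρ)
  have h4 : pkn (NE Rd B ρ) (U0 Rd o (ρ' o + l) (ρ' none)) ≤
      pkn (NE Rd B ρ) (U0 Rd o (ρ o + l + r) (ρ none + r)) :=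
    pkn_mono le_rfl (U0_mono (by linarith [e2 o]) (e2 none)) (bdd_U0 hB o _ _ ρ)
  have h5 := h2 o (ρ o + l) (ρ none) r hr ρ
  have h6 : Real.exp (Hp Rd B o ρ' l) ≤ Real.exp (Hp Rd B o ρ l + C * (1 + r)) := by
    rw [exp_Hp hB, Real.exp_add, exp_Hp hB]
    calc (pkn (NE Rd B ρ') (U0 Rd o (ρ' o + l) (ρ' none)) : ℝ)
        ≤ Real.exp (C1 * (1 + r)) * pkn (NE Rd B ρ) (U0 Rd o (ρ' o + l) (ρ' none)) := h3
      _ ≤ Real.exp (C1 * (1 + r)) * (Real.exp (C2 * (1 + r)) *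
            pkn (NE Rd B ρ) (U0 Rd o (ρ o + l) (ρ none))) := by
          refine mul_le_mul_of_nonneg_left (le_trans ?_ h5) (Real.exp_pos _).le
          exact_mod_cast h4
      _ = Real.exp ((C1 + C2) * (1 + r)) * pkn (NE Rd B ρ) (U0 Rd o (ρ o + l) (ρ none)) := by
          rw [← mul_assoc, ← Real.exp_add, ← add_mul]
      _ ≤ Real.exp (C * (1 + r)) * pkn (NE Rd B ρ) (U0 Rd o (ρ o + l) (ρ none)) := by
          refine mul_le_mul_of_nonneg_right (Real.exp_le_exp.2 ?_) (Nat.cast_nonneg _)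
          exact mul_le_mul_of_nonneg_right hC (by linarith)
      _ = _ := mul_comm _ _
  exact Real.exp_le_exp.1 h6

/-! ### covering -/

omit [DecidableEq J] in
theorem cov_num {m : ℕ} {c K t0 T0 C l : ℝ} (hc : c ≤ K) (hK : 1 ≤ K) (hT0 : 0 ≤ T0) (hl : 0 ≤ l)
    (hC : Real.log K + T0 * m ≤ C * t0) :
    c * (Real.exp (-(t0 * (C * (l + 1)))) * Real.exp (T0 * l) ^ m) ≤ 1 ^ m := by
  rw [one_pow]
  have e1 : c ≤ Real.exp (Real.log K) := by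
    rw [Real.exp_log (by linarith)]; exact hc
  refine (mul_le_mul_of_nonneg_right e1 (by positivity)).trans ?_
  rw [← Real.exp_nat_mul, ← Real.exp_add, ← Real.exp_add, Real.exp_le_one_iff]
  have e2 := mul_le_mul_of_nonneg_right hC (by linarith : 0 ≤ l + 1)
  have e3 : 0 ≤ Real.log K * l := mul_nonneg (Real.log_nonneg hK) hl
  have e4 : 0 ≤ T0 * (m : ℝ) := by positivity
  have e5 : (m : ℝ) * (T0 * l) = T0 * m * l := by ring
  have e6 : t0 * (C * (l + 1)) = C * t0 * (l + 1) := by ring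
  have e7 : (Real.log K + T0 * m) * (l + 1) = Real.log K * l + Real.log K + T0 * m * l + T0 * m := by
    ring
  linarith

theorem bump_le (ρ : Option J → ℝ) (o : Option J) {l c : ℝ} (hl : 0 ≤ l) (hc : 0 ≤ c)
    (j : Option J) : bump ρ o l c j ≤ ρ j + l := by
  rcases j with _ | j
  · simp only [bump]; split_ifs <;> linarith
  · simp only [bump]; split_ifs <;> linarith

theorem bump_off (ρ : Option J → ℝ) (o : Option J) (l c : ℝ) {j : Option J} (h1 : j ≠ o)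
    (h2 : j ≠ none) : bump ρ o l c j = ρ j - c := by
  rcases j with _ | j
  · exact absurd rfl h2
  · simp only [bump]
    rw [if_neg (fun e => h1 e.symm)]

theorem sz_bump_le (Rd : RayD M J) {T0 : ℝ} (hτ : ∀ a, Rd.τ a ≤ T0) (ρ : Option J → ℝ) (o : Option J) {l c : ℝ}
    (hl : 0 ≤ l) (hc : 0 ≤ c) (a : M.ι) :
    Rd.sz (bump ρ o l c) a ≤ Real.exp (T0 * l) * Rd.sz ρ a := by
  rw [RayD.sz, RayD.sz, ← Real.exp_add, Real.exp_le_exp]
  have e2 := mul_le_mul_of_nonneg_left (bump_le ρ o hl hc (Rd.ray a)) (Rd.τ_pos a).le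
  have e3 := mul_le_mul_of_nonneg_right (hτ a) hl
  linarith

theorem sz_bump_off (Rd : RayD M J) {t0 : ℝ} (hτ : ∀ a, t0 ≤ Rd.τ a) (ρ : Option J → ℝ) (o : Option J) {l c : ℝ}
    (hc : 0 ≤ c) (a : M.ι) (ha : ¬ po Rd o a) :
    Rd.sz (bump ρ o l c) a ≤ Real.exp (-(t0 * c)) * Rd.sz ρ a := by
  rw [RayD.sz, RayD.sz, ← Real.exp_add, Real.exp_le_exp]
  unfold po at ha
  rw [not_or] at ha
  rw [bump_off ρ o l c ha.1 ha.2]
  have e3 := mul_le_mul_of_nonneg_right (hτ a) hc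
  linarith

include hB in
/-- one element: `y = n' u` -/
theorem cov_split (h : NatHyp M) {Cs : ℝ} {o : Option J}
    (hCs : ∀ R3 R : M.ι → ℝ,
      (∀ i, 0 ≤ R3 i) → (∀ i, 0 ≤ R i) → ∀ t s δ : ℝ, 1 ≤ t → 0 ≤ s → 0 < δ → δ ≤ 1 →
      Cs * (s * t ^ D.R.m) ≤ δ ^ D.R.m → (∀ i, R3 i ≤ t * R i) →
      (∀ i, ¬ po Rd o i → R3 i ≤ s * R i) →
      ∀ g ∈ bx D M.X R3, ∃ (n' : D.S) (x' : pu M.X (po Rd o)), g = n' * jU D M.X (po Rd o) x' ∧
      x' ∈ Ub M.X (po Rd o) R3 ∧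
      n' ∈ bx D M.X (fun i => δ * R i) ∧ ∀ x ∈ Ub M.X (po Rd o) R3,
        jU D M.X (po Rd o) x * n' * (jU D M.X (po Rd o) x)⁻¹ ∈ bx D M.X (fun i => δ * R i) ∧
        ∃ y ∈ Ub M.X (po Rd o) (fun i => Cs * R3 i), jU D M.X (po Rd o) y =
          jU D M.X (po Rd o) x * jU D M.X (po Rd o) x')
    {K t0 T0 C l : ℝ} (hc : Cs ≤ K) (hK : 1 ≤ K) (hT0 : 0 ≤ T0) (hl : 0 ≤ l) (hC0 : 0 ≤ C)
    (hC : Real.log K + T0 * D.R.m ≤ C * t0) (hτ : ∀ a, t0 ≤ Rd.τ a ∧ Rd.τ a ≤ T0)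
    (ρ : Option J → ℝ) (y : M.NR) (hy : y ∈ NE Rd B (bump ρ o l (C * (l + 1)))) :
    ∃ u ∈ U0 Rd o (ρ o + l) (ρ none), y * u⁻¹ ∈ NE Rd B ρ := by
  rw [mem_NE hB] at hy
  have hp : 0 ≤ C * (l + 1) := by positivity
  obtain ⟨n', x', hyn, hx', hn', -⟩ := hCs (Rd.sz (bump ρ o l (C * (l + 1)))) (Rd.sz ρ)
    (fun a => (Rd.sz_pos _ a).le) (fun a => (Rd.sz_pos _ a).le) (Real.exp (T0 * l))
    (Real.exp (-(t0 * (C * (l + 1))))) 1 (Real.one_le_exp (by positivity)) (Real.exp_pos _).le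
    one_pos le_rfl (cov_num hc hK hT0 hl hC) (sz_bump_le Rd (fun a => (hτ a).2) ρ o hl hp)
    (sz_bump_off Rd (fun a => (hτ a).1) ρ o hp) (y : D.S) hy
  have hxη : D.ex (x' : D.R.V) ∈ M.NR := by
    rw [M.mem_NR, ← h.hex]; exact M.η_ex _
  refine ⟨⟨D.ex (x' : D.R.V), hxη⟩, ⟨(x' : D.R.V), ?_, rfl⟩, ?_⟩
  · have h2 : (x' : D.R.V) ∈ nb (LB M.X (on (po Rd o) (Rd.sz (bump ρ o l (C * (l + 1)))))) := hx'
    rwa [on_congr (so_bump (Rd := Rd) o ρ l (C * (l + 1)))] at h2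
  · have hnm : n' = ((y * (⟨D.ex (x' : D.R.V), hxη⟩ : M.NR)⁻¹ : M.NR) : D.S) := by
      rw [Subgroup.coe_mul, Subgroup.coe_inv, hyn]
      change n' = n' * D.ex (x' : D.R.V) * (D.ex (x' : D.R.V))⁻¹
      group
    rw [mem_NE hB]
    rw [hnm] at hn'
    obtain ⟨v, hv, hvn⟩ := hn'
    refine ⟨v, ?_, hvn⟩
    simpa only [one_mul] using hv

include hB in
/-- **field `cov`** -/
theorem geo_cov [Fintype J] (h : NatHyp M) : ∃ C0 : ℝ, 0 ≤ C0 ∧ ∀ C : ℝ, C0 ≤ C →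
    ∀ (o : Option J) (ρ : Option J → ℝ) (l : ℝ), 0 ≤ l →
    ∃ F : Finset M.NR, (F.card : ℝ) ≤ Real.exp (Hp Rd B o ρ l + C) ∧
      ∀ y ∈ NE Rd B (bump ρ o l (C * (l + 1))), ∃ z ∈ F, ∃ n ∈ NE Rd B (sh ρ C), y = n * z := by
  classical
  obtain ⟨t0, T0, ht0, hT0, hτ⟩ := Rd.exists_τ
  have h1 := fun o : Option J => split_bx D M.X (po Rd o)
  choose Cs hCs1 hCs using h1
  obtain ⟨C1, hC1, hmul⟩ := Rd.Nb_mul B
  have hKo : ∀ o, Cs o ≤ ∑ o, Cs o := fun o =>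
    single_le_sum (f := Cs) (fun o _ => by linarith [hCs1 o]) (mem_univ o)
  have hK1 : 1 ≤ ∑ o, Cs o := (hCs1 none).trans (hKo none)
  have hlogK := Real.log_nonneg hK1
  refine ⟨(Real.log (∑ o, Cs o) + T0 * D.R.m) / t0 + 2 * C1, by positivity,
    fun C hC o ρ l hl => ?_⟩
  have hC2 : Real.log (∑ o, Cs o) + T0 * D.R.m ≤ C * t0 := by
    rw [← div_le_iff₀ ht0]; linarith
  have hC3 : 2 * C1 ≤ C := by
    have : 0 ≤ (Real.log (∑ o, Cs o) + T0 * D.R.m) / t0 := by positivity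
    linarith
  have hC0 : 0 ≤ C := by linarith
  obtain ⟨F, hF1, hF2, hF3, hF4⟩ := exists_max (NE_ne B ρ)
    (bdd_U0 (Rd := Rd) hB o (ρ o + l) (ρ none) ρ)
  refine ⟨F, ?_, fun y hy => ?_⟩
  · rw [hF3, Real.exp_add, exp_Hp hB]
    exact le_mul_of_one_le_right (Nat.cast_nonneg _) (Real.one_le_exp hC0)
  · obtain ⟨u, hu, hn2⟩ := cov_split hB h (hCs o) (hKo o) hK1 (by linarith) hl hC0 hC2 hτ ρ y hy
    obtain ⟨z, hz, m1, hm1, m2, hm2, he⟩ := hF4 u hu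
    refine ⟨z, hz, y * z⁻¹, ?_, by group⟩
    have e1 : y * z⁻¹ = (y * u⁻¹) * (m1⁻¹ * m2) := by
      have : u = m1⁻¹ * (m2 * z) := by rw [← he]; group
      rw [this]; group
    rw [e1]
    have e2 := hmul C1 le_rfl ρ _ (inv_mem_NE hm1) _ hm2
    have e3 := hmul C1 le_rfl (fun j => ρ j + C1) _ (NE_mono B (fun j => by linarith) hn2) _ e2
    refine NE_mono B (fun j => ?_) e3
    show ρ j + C1 + C1 ≤ ρ j + C
    linarith

/-! ### separated families of elements of the ray -/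

omit [DecidableEq J] in
theorem LB_split3 {ι : Type} [Fintype ι] (X : ι → D.R.V) {p p0 q : ι → Prop} (σ : ι → ℝ)
    (h : ∀ a, p a ↔ p0 a ∨ q a) (hd : ∀ a, p0 a → ¬ q a) :
    LB X (on p σ) ⊆ LB X (on p0 σ) + LB X (on q σ) := by
  rintro _ ⟨y, hy, rfl⟩
  refine ⟨∑ a, y a • on p0 σ a • X a, ⟨y, hy, rfl⟩, ∑ a, y a • on q σ a • X a, ⟨y, hy, rfl⟩, ?_⟩
  simp only
  rw [← sum_add_distrib]
  refine sum_congr rfl fun a _ => ?_
  unfold on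
  by_cases h1 : p0 a
  · rw [if_pos h1, if_neg (hd a h1), if_pos ((h a).2 (Or.inl h1))]
    simp
  · by_cases h2 : q a
    · rw [if_neg h1, if_pos h2, if_pos ((h a).2 (Or.inr h2))]
      simp
    · rw [if_neg h1, if_neg h2, if_neg (fun h3 => ((h a).1 h3).elim h1 h2)]
      simp

omit [DecidableEq J] in
theorem LB_on_mono {ι : Type} [Fintype ι] (X : ι → D.R.V) {p p' : ι → Prop} {σ : ι → ℝ}
    (hσ : ∀ a, 0 ≤ σ a) (h : ∀ a, p' a → p a) : LB X (on p' σ) ⊆ LB X (on p σ) := by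
  refine LB_mono _ (on_nonneg hσ) fun a => ?_
  unfold on
  by_cases h1 : p' a
  · rw [if_pos h1, if_pos (h a h1)]
  · rw [if_neg h1]
    split_ifs
    · exact hσ a
    · exact le_rfl

omit [DecidableEq J] in
theorem mnb_inv_scale {ι : Type} [Fintype ι] (X : ι → D.R.V) {p q : ι → Prop} {σ : ι → ℝ} {C : ℝ}
    (hC : 1 ≤ C) {x : D.R.NR} (h : D.R.Lo x ∈ C • mnb (LB X (on p fun a => C⁻¹ * σ a))
      (LB X (on q fun a => C⁻¹ * σ a))) :
    D.R.Lo x⁻¹ ∈ mnb (LB X (on p σ)) (LB X (on q σ)) := by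
  have hC0 : 0 < C := by linarith
  have hm := csy_mnb (R := D.R) (csy_LB X (on p σ)) (csy_LB X (on q σ))
  rw [← on_mul, ← on_mul, ← smul_LB, ← smul_LB] at h
  have h3 := Set.smul_set_mono (a := C) (mnb_smul_sub (csy_LB X (on p σ))
    (csy_LB X (on q σ)) (inv_nonneg.2 hC0.le) (inv_le_one_of_one_le₀ hC)) h
  rw [smul_smul, mul_inv_cancel₀ hC0.ne', one_smul] at h3
  rw [Lo_inv]
  exact hm.neg _ h3

omit [DecidableEq J] in
theorem inN_mem (h : NatHyp M) (x : D.R.NR) : D.inN x ∈ M.NR := by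
  rw [M.mem_NR]
  have h1 : D.inN x = M.ex (D.R.Lo x) := by
    rw [h.hex]
    change _ = D.inN (D.R.Ex (D.R.Lo x))
    rw [D.R.Ex_Lo]
  rw [h1]
  exact M.η_ex _

omit [DecidableEq J] in
theorem ex_Lo' (x : D.R.NR) : D.ex (D.R.Lo x) = D.inN x := by
  change D.inN (D.R.Ex (D.R.Lo x)) = _
  rw [D.R.Ex_Lo]

/-- neutral times ray part, `o = some i` -/
theorem split_some (Rd : RayD M J) (h : NatHyp M) {C : ℝ} (hC1 : 1 ≤ C)
    (H : ∀ (G₃ Gi Go G : Set D.R.V), CSy G₃ → CSy Gi → CSy Go → CSy G →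
      Gi ⊆ G₃ → Go ⊆ G₃ → G₃ ⊆ Gi + Go → ∀ t s : ℝ, 1 ≤ t → 0 ≤ s → G₃ ⊆ t • G → Go ⊆ s • G →
      ∀ g ∈ EK D.R (nb G₃), ∃ n' x' : D.R.NR, g = n' * x' ∧ x' ∈ EK D.R (nb Gi) ∧
        n' ∈ EK D.R (C • mnb G₃ Go) ∧ ∀ x ∈ EK D.R ((1 : ℝ) • nb Gi),
          x * n' * x⁻¹ ∈ EK D.R ((C * (s * t ^ D.R.m)) • nb G) ∧ x * x' ∈ EK D.R (C • nb Gi))
    (i : J) (μ r : ℝ) (x : M.NR)
    (hx : x ∈ US M (po Rd (some i)) (fun a => C⁻¹ * so Rd (some i) μ r a)) :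
    ∃ y : M.NR, (∃ v ∈ nb (LB M.X (on (fun a => Rd.ray a = none) (Rd.sz fun _ => r))),
        D.ex v = (y : D.S)) ∧ y * x ∈ Uo Rd (some i) μ r := by
  have hC0 : 0 < C := by linarith
  have hCi : C⁻¹ ≤ 1 := inv_le_one_of_one_le₀ hC1
  have hσ0 : ∀ a, 0 ≤ so Rd (some i) μ r a := fun a => (so_pos _ _ _ a).le
  have hσc : ∀ a, 0 ≤ C⁻¹ * so Rd (some i) μ r a := fun a => mul_nonneg (by positivity) (hσ0 a)
  obtain ⟨v, hv, hvx⟩ := inv_mem_US hx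
  obtain ⟨n', x', hg, hx', hn', -⟩ := H
    (LB M.X (on (po Rd (some i)) fun a => C⁻¹ * so Rd (some i) μ r a))
    (LB M.X (on (fun a => Rd.ray a = none) fun a => C⁻¹ * so Rd (some i) μ r a))
    (LB M.X (on (fun a => Rd.ray a = some i) fun a => C⁻¹ * so Rd (some i) μ r a))
    (LB M.X (on (po Rd (some i)) fun a => C⁻¹ * so Rd (some i) μ r a))
    (csy_LB _ _) (csy_LB _ _) (csy_LB _ _) (csy_LB _ _)
    (LB_on_mono M.X hσc fun a ha => Or.inr ha) (LB_on_mono M.X hσc fun a ha => Or.inl ha)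
    (LB_split3 M.X _ (fun a => Or.comm) fun a h1 h2 => by rw [h1] at h2; cases h2)
    1 1 le_rfl zero_le_one
    (by rw [one_smul]) (by rw [one_smul]; exact LB_on_mono M.X hσc fun a ha => Or.inl ha)
    (D.R.Ex v) (by rw [mem_EK, D.R.Lo_Ex]; exact hv)
  refine ⟨⟨D.inN x', inN_mem h x'⟩, ⟨D.R.Lo x', ?_, ex_Lo' x'⟩, ?_⟩
  · refine nb_mono (LB_mono _ (on_nonneg hσc) fun a => ?_) hx'
    unfold on
    by_cases h2 : Rd.ray a = none
    · rw [if_pos h2, if_pos h2]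
      refine (mul_le_of_le_one_left (hσ0 a) hCi).trans (le_of_eq ?_)
      rw [so, RayD.sz, RayD.sz, h2]
      simp [exto]
    · rw [if_neg h2, if_neg h2]
  · -- `x⁻¹ = n' x'`, so `x' x = n'⁻¹`
    refine ⟨D.R.Lo n'⁻¹, mnb_inv_scale M.X hC1 hn', ?_⟩
    rw [ex_Lo']
    have h2 : (x : D.S) = (D.inN (n' * x'))⁻¹ := by
      rw [← hg]
      change _ = (D.ex v)⁻¹
      rw [hvx, Subgroup.coe_inv, inv_inv]
    rw [Subgroup.coe_mul, h2, map_mul, map_inv]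
    change _ = D.inN x' * _
    group

/-- neutral times ray part -/
theorem split_U (Rd : RayD M J) (h : NatHyp M) : ∃ C : ℝ, 1 ≤ C ∧ ∀ (o : Option J) (μ r : ℝ),
    ∀ x ∈ US M (po Rd o) (fun a => C⁻¹ * so Rd o μ r a),
      ∃ y : M.NR, (∃ v ∈ nb (LB M.X (on (fun a => Rd.ray a = none) (Rd.sz fun _ => r))),
        D.ex v = (y : D.S)) ∧ y * x ∈ Uo Rd o μ r := by
  obtain ⟨C, hC1, H⟩ := key1 D.R (c := 1) le_rfl
  refine ⟨C, hC1, fun o μ r x hx => ?_⟩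
  rcases o with _ | i
  · refine ⟨1, ⟨0, (csy_nb (csy_LB M.X _)).zero, by rw [D.ex_zero]; rfl⟩, ?_⟩
    rw [one_mul]
    refine US_mono (fun a => mul_nonneg (by positivity) (so_pos _ _ _ a).le) (fun a _ => ?_) hx
    exact mul_le_of_le_one_left (so_pos _ _ _ a).le (inv_le_one_of_one_le₀ hC1)
  · exact split_some Rd h hC1 H i μ r x hx

theorem sep_num {K Cb Cm C C1 n a b c : ℝ} (hK : 1 ≤ K) (hCb : 0 ≤ Cb) (hCm : 0 ≤ Cm)
    (hC1 : 0 ≤ C1) (hC : Real.log K + Cb * (1 + Cm) ≤ C) (hn : n ≤ K) (hb : 0 ≤ b) (hc : 0 ≤ c)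
    (h1 : a ≤ n * b) (h2 : b ≤ Real.exp (Cb * (1 + (C1 + Cm))) * c) :
    a ≤ Real.exp (C * (1 + C1)) * c := by
  have hlogK := Real.log_nonneg hK
  refine h1.trans ?_
  calc n * b ≤ Real.exp (Real.log K) * (Real.exp (Cb * (1 + (C1 + Cm))) * c) := by
        refine mul_le_mul ?_ h2 hb (Real.exp_pos _).le
        rw [Real.exp_log (by linarith)]
        exact hn
    _ = Real.exp (Real.log K + Cb * (1 + (C1 + Cm))) * c := by rw [← mul_assoc, ← Real.exp_add]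
    _ ≤ _ := by
        refine mul_le_mul_of_nonneg_right (Real.exp_le_exp.2 ?_) hc
        have e1 := mul_le_mul_of_nonneg_right hC (by linarith : 0 ≤ 1 + C1)
        have e2 : 0 ≤ Real.log K * C1 := by positivity
        have e3 : 0 ≤ Cb * Cm * C1 := by positivity
        nlinarith

include hB in
/-- **field `sep`** -/
theorem geo_sep [Fintype J] (h : NatHyp M) : ∃ C0 : ℝ, 0 ≤ C0 ∧ ∀ C : ℝ, C0 ≤ C →
    ∀ (o : Option J) (ρ : Option J → ℝ) (l C1 : ℝ), 0 ≤ C1 →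
    ∃ X : Finset M.NR, (∀ x ∈ X, x ∈ Uo Rd o (ρ o + l) (ρ none)) ∧
      Real.exp (Hp Rd B o ρ l - C * (1 + C1)) ≤ X.card ∧
      ∀ x ∈ X, ∀ y ∈ X, x ≠ y → ∀ n ∈ NE Rd B (sh ρ C1), ∀ n' ∈ NE Rd B (sh ρ C1),
        n * x ≠ n' * y := by
  classical
  obtain ⟨Cs, hCs1, hsp⟩ := split_U Rd h
  have hCs0 : 0 < Cs := by linarith
  obtain ⟨Cm, hCm, hmul⟩ := Rd.Nb_mul B
  obtain ⟨Cb, hCb, hbox⟩ := pkn_box Rd B
  have h1 : ∀ o : Option J, ∃ n : ℕ, 1 ≤ n ∧ ∀ σ : M.ι → ℝ, (∀ a, 0 < σ a) → ∀ ρ : Option J → ℝ,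
      pkn (NE Rd B ρ) (US M (po Rd o) fun a => Cs * σ a) ≤
        n * pkn (NE Rd B ρ) (US M (po Rd o) σ) := fun o => pkn_US h hB (po Rd o) _ hCs1
  choose n hn1 hn using h1
  have hKo : ∀ o, (n o : ℝ) ≤ ∑ o, (n o : ℝ) := fun o =>
    single_le_sum (f := fun o => (n o : ℝ)) (fun _ _ => Nat.cast_nonneg _) (mem_univ o)
  have hK1 : 1 ≤ ∑ o, (n o : ℝ) := le_trans (by exact_mod_cast hn1 none) (hKo none)
  have hlogK := Real.log_nonneg hK1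
  refine ⟨Real.log (∑ o, (n o : ℝ)) + Cb * (1 + Cm), by positivity, fun C hC o ρ l C1 hC1 => ?_⟩
  have hσ0 : ∀ a, 0 < Cs⁻¹ * so Rd o (ρ o + l) (ρ none) a :=
    fun a => mul_pos (inv_pos.2 hCs0) (so_pos _ _ _ a)
  obtain ⟨X0, hX1, hX2, hX3⟩ := exists_pkn (bdd_US (Rd := Rd) hB (po Rd o)
    (fun a => (hσ0 a).le) fun j => ρ j + (C1 + Cm))
  have hg : ∀ x : M.NR, ∃ z : M.NR,
      x ∈ US M (po Rd o) (fun a => Cs⁻¹ * so Rd o (ρ o + l) (ρ none) a) →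
      (z ∈ Uo Rd o (ρ o + l) (ρ none) ∧ z * x⁻¹ ∈ NE Rd B ρ) := by
    intro x
    by_cases hx : x ∈ US M (po Rd o) (fun a => Cs⁻¹ * so Rd o (ρ o + l) (ρ none) a)
    · obtain ⟨y, ⟨v, hv, hvy⟩, hyx⟩ := hsp o _ _ x hx
      refine ⟨y * x, fun _ => ⟨hyx, ?_⟩⟩
      rw [mul_inv_cancel_right, mem_NE hB]
      refine ⟨v, nb_mono (LB_mono _ (on_nonneg fun a => (Rd.sz_pos _ a).le) fun a => ?_) hv, hvy⟩
      unfold on
      split_ifs with ha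
      · unfold RayD.sz
        rw [ha]
      · exact (Rd.sz_pos _ a).le
    · exact ⟨1, fun h => absurd h hx⟩
  choose g hg using hg
  obtain ⟨X, hXc, hXs, hXg⟩ := Sep.replace (K := NE Rd B (sh ρ C1)) (NE_ne B _) hX2 g
    (fun x hx m hm => by
      have h2 := (hg x (hX1 x hx)).2
      have h3 := hmul Cm le_rfl (fun j => ρ j + C1) _ hm _ (NE_mono B (fun j => by linarith) h2)
      have h4 : m * g x * x⁻¹ = m * (g x * x⁻¹) := by group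
      rw [h4]
      refine NE_mono B (fun j => ?_) h3
      linarith)
  refine ⟨X, fun y hy => ?_, ?_, hXs⟩
  · obtain ⟨x, hx, rfl⟩ := hXg y hy
    exact (hg x (hX1 x hx)).1
  · rw [hXc, hX3]
    have h2 := hbox ρ (fun j => ρ j + (C1 + Cm)) (C1 + Cm) (by positivity) (fun j => le_rfl)
      (US M (po Rd o) fun a => Cs⁻¹ * so Rd o (ρ o + l) (ρ none) a)
      (bdd_US hB _ (fun a => (hσ0 a).le) ρ) (bdd_US hB _ (fun a => (hσ0 a).le) _)
    have h3 := hn o _ hσ0 ρ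
    have h4 : US M (po Rd o) (fun a => Cs * (Cs⁻¹ * so Rd o (ρ o + l) (ρ none) a)) =
        U0 Rd o (ρ o + l) (ρ none) := by
      refine US_congr fun a _ => ?_
      rw [mul_inv_cancel_left₀ hCs0.ne']
    rw [h4] at h3
    have h5 : (pkn (NE Rd B ρ) (U0 Rd o (ρ o + l) (ρ none)) : ℝ) ≤ n o *
        pkn (NE Rd B ρ) (US M (po Rd o) fun a => Cs⁻¹ * so Rd o (ρ o + l) (ρ none) a) := by
      exact_mod_cast h3
    have h6 := sep_num hK1 hCb hCm hC1 hC (hKo o) (Nat.cast_nonneg _) (Nat.cast_nonneg _) h5 h2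
    rw [Real.exp_sub, exp_Hp hB, div_le_iff₀ (Real.exp_pos _), mul_comm]
    exact h6

end geoq

end Vale.Agent.P188.H8
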