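import Vale.Agent.P188.H8.Vol

/-!
# P188, route B (ES): packing numbers

`pkn K U` = maximal number of elements `x ∈ U` with pairwise disjoint translates `K * x`.
-/

set_option linter.all false

open MeasureTheory Set
open scoped ENNReal

namespace Vale.Agent.P188.H8

section pack

variable {E : Type*} [Group E]

/-- the translates `K * x`, `x ∈ X`, are pairwise disjoint -/
def Sep (K : Set E) (X : Finset E) : Prop :=
  ∀ x ∈ X, ∀ y ∈ X, x ≠ y → ∀ n ∈ K, ∀ n' ∈ K, n * x ≠ n' * y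

theorem Sep.mono {K K' : Set E} {X : Finset E} (h : Sep K' X) (hK : K ⊆ K') : Sep K X :=
  fun x hx y hy hxy n hn n' hn' => h x hx y hy hxy n (hK hn) n' (hK hn')

theorem Sep.subset {K : Set E} {X Y : Finset E} (h : Sep K X) (hK : Y ⊆ X) : Sep K Y :=
  fun x hx y hy => h x (hK hx) y (hK hy)

/-- the cardinalities of the separated families -/
def PK (K U : Set E) : Set ℕ := {n | ∃ X : Finset E, (∀ x ∈ X, x ∈ U) ∧ Sep K X ∧ X.card = n}

/-- the packing number -/
noncomputable def pkn (K U : Set E) : ℕ := sSup (PK K U)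

theorem PK_nonempty (K U : Set E) : (PK K U).Nonempty :=
  ⟨0, ∅, by simp, by intro x hx; simp at hx, rfl⟩

theorem le_pkn {K U : Set E} (hb : BddAbove (PK K U)) {X : Finset E} (hX : ∀ x ∈ X, x ∈ U)
    (hs : Sep K X) : X.card ≤ pkn K U := le_csSup hb ⟨X, hX, hs, rfl⟩

theorem exists_pkn {K U : Set E} (hb : BddAbove (PK K U)) :
    ∃ X : Finset E, (∀ x ∈ X, x ∈ U) ∧ Sep K X ∧ X.card = pkn K U :=
  Nat.sSup_mem (PK_nonempty K U) hb

theorem pkn_le {K U : Set E} {n : ℕ} (h : ∀ X : Finset E, (∀ x ∈ X, x ∈ U) → Sep K X → X.card ≤ n) :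
    pkn K U ≤ n := by
  refine csSup_le (PK_nonempty K U) ?_
  rintro _ ⟨X, h1, h2, rfl⟩
  exact h X h1 h2

/-- maximality: the set `U` is covered by `K⁻¹ K x` -/
theorem exists_max {K U : Set E} (hK : K.Nonempty) (hb : BddAbove (PK K U)) :
    ∃ X : Finset E, (∀ x ∈ X, x ∈ U) ∧ Sep K X ∧ X.card = pkn K U ∧
      ∀ u ∈ U, ∃ x ∈ X, ∃ n ∈ K, ∃ n' ∈ K, n * u = n' * x := by
  classical
  obtain ⟨X, h1, h2, h3⟩ := exists_pkn hb
  refine ⟨X, h1, h2, h3, fun u hu => ?_⟩
  by_contra hcon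
  have hcon' : ∀ x ∈ X, ∀ n ∈ K, ∀ n' ∈ K, n * u ≠ n' * x := by
    intro x hx n hn n' hn' he
    exact hcon ⟨x, hx, n, hn, n', hn', he⟩
  obtain ⟨k, hk⟩ := hK
  have huX : u ∉ X := fun h => hcon' u h k hk k hk rfl
  have hs : Sep K (insert u X) := by
    intro x hx y hy hxy n hn n' hn'
    rw [Finset.mem_insert] at hx hy
    rcases hx with rfl | hx <;> rcases hy with rfl | hy
    · exact absurd rfl hxy
    · exact hcon' y hy n hn n' hn'
    · exact fun he => hcon' x hx n' hn' n hn he.symm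
    · exact h2 x hx y hy hxy n hn n' hn'
  have h4 := le_pkn hb (X := insert u X) (fun x hx => by
    rcases Finset.mem_insert.1 hx with rfl | hx
    · exact hu
    · exact h1 x hx) hs
  rw [Finset.card_insert_of_notMem huX, h3] at h4
  omega

/-- change of both sets by an automorphism -/
theorem pkn_map (φ : E ≃* E) {K U K₂ U₂ : Set E} (hK : ∀ k ∈ K, φ k ∈ K₂)
    (hU : ∀ u ∈ U₂, φ.symm u ∈ U) (hb : BddAbove (PK K U)) : pkn K₂ U₂ ≤ pkn K U := by
  classical
  refine pkn_le fun X hX hs => ?_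
  have h1 := le_pkn (K := K) (U := U) hb (X := X.image φ.symm) (fun x hx => by
    obtain ⟨y, hy, rfl⟩ := Finset.mem_image.1 hx
    exact hU y (hX y hy)) (by
    intro x hx y hy hxy n hn n' hn' he
    obtain ⟨x', hx', rfl⟩ := Finset.mem_image.1 hx
    obtain ⟨y', hy', rfl⟩ := Finset.mem_image.1 hy
    refine hs x' hx' y' hy' (fun h => hxy (by rw [h])) (φ n) (hK n hn) (φ n') (hK n' hn') ?_
    have := congrArg φ he
    simpa using this)
  rwa [Finset.card_image_of_injective _ φ.symm.injective] at h1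

theorem pkn_mono {K U K₂ U₂ : Set E} (hK : K ⊆ K₂) (hU : U₂ ⊆ U) (hb : BddAbove (PK K U)) :
    pkn K₂ U₂ ≤ pkn K U :=
  pkn_map (MulEquiv.refl E) (fun k hk => hK hk) (fun u hu => hU hu) hb

theorem PK_bdd_mono {K U K₂ U₂ : Set E} (hK : K ⊆ K₂) (hU : U₂ ⊆ U) (hb : BddAbove (PK K U)) :
    BddAbove (PK K₂ U₂) := by
  refine ⟨pkn K U, ?_⟩
  rintro _ ⟨X, h1, h2, rfl⟩
  exact le_pkn hb (fun x hx => hU (h1 x hx)) (h2.mono hK)

/-- change of `U`: covering by right translates -/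
theorem pkn_cover {K U U' : Set E} (F : Finset E) (h : ∀ u ∈ U', ∃ f ∈ F, u * f⁻¹ ∈ U)
    (hb : BddAbove (PK K U)) : pkn K U' ≤ F.card * pkn K U := by
  classical
  refine pkn_le fun X hX hs => ?_
  have h1 : X ⊆ F.biUnion fun f => X.filter fun x => x * f⁻¹ ∈ U := by
    intro x hx
    obtain ⟨f, hf, hfx⟩ := h x (hX x hx)
    exact Finset.mem_biUnion.2 ⟨f, hf, Finset.mem_filter.2 ⟨hx, hfx⟩⟩
  refine (Finset.card_le_card h1).trans (Finset.card_biUnion_le.trans ?_)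
  refine (Finset.sum_le_card_nsmul F _ (pkn K U) fun f _ => ?_).trans (by simp)
  have h2 := le_pkn (K := K) (U := U) hb
    (X := (X.filter fun x => x * f⁻¹ ∈ U).image fun x => x * f⁻¹) (fun x hx => by
      obtain ⟨y, hy, rfl⟩ := Finset.mem_image.1 hx
      exact (Finset.mem_filter.1 hy).2) (by
      intro x hx y hy hxy n hn n' hn' he
      obtain ⟨x', hx', rfl⟩ := Finset.mem_image.1 hx
      obtain ⟨y', hy', rfl⟩ := Finset.mem_image.1 hy
      refine hs x' (Finset.mem_filter.1 hx').1 y' (Finset.mem_filter.1 hy').1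
        (fun h => hxy (by rw [h])) n hn n' hn' ?_
      rw [← mul_assoc, ← mul_assoc] at he
      exact mul_right_cancel he)
  rwa [Finset.card_image_of_injective _ (mul_left_injective f⁻¹)] at h2

/-- **growth**: an additive function separates the powers of `Y` -/
theorem pkn_grow {W : Type*} [NormedAddCommGroup W] [NormedSpace ℝ W] {D : E → W}
    (hD : ∀ x y, D (x * y) = D x + D y) {K U' U'' : Set E} (hK : K.Nonempty) {L : ℝ}
    (hDK : ∀ k ∈ K, ‖D k‖ ≤ L) (hDU : ∀ u ∈ U', ‖D u‖ ≤ L) {Y : E} (hY : 4 * L < ‖D Y‖) (m : ℕ)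
    (hU : ∀ u ∈ U', ∀ k ≤ m, u * Y ^ k ∈ U'') (hb : BddAbove (PK K U'))
    (hb'' : BddAbove (PK K U'')) : (m + 1) * pkn K U' ≤ pkn K U'' := by
  classical
  obtain ⟨X, h1, h2, h3⟩ := exists_pkn hb
  have hD1 : D 1 = 0 := by
    have := hD 1 1
    rw [mul_one] at this
    simpa using this
  have hDp : ∀ k : ℕ, D (Y ^ k) = (k : ℝ) • D Y := by
    intro k
    induction k with
    | zero => rw [pow_zero, hD1]; simp
    | succ k ih => rw [pow_succ, hD, ih]; push_cast; rw [add_smul, one_smul]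
  have key : ∀ x ∈ X, ∀ y ∈ X, ∀ k l : ℕ, ∀ n ∈ K, ∀ n' ∈ K,
      n * (x * Y ^ k) = n' * (y * Y ^ l) → x = y ∧ k = l := by
    intro x hx y hy k l n hn n' hn' he
    have h4 := congrArg D he
    rw [hD, hD, hD, hD, hDp, hDp] at h4
    have h5 : ((k : ℝ) - l) • D Y = (D n' - D n) + (D y - D x) := by
      rw [sub_smul, sub_eq_iff_eq_add]
      have h6 : (k : ℝ) • D Y = D n' + (D y + (l : ℝ) • D Y) - D n - D x := by
        rw [← h4]; abel
      rw [h6]; abel
    have h6 : ‖((k : ℝ) - l) • D Y‖ ≤ 4 * L := by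
      rw [h5]
      refine (norm_add_le _ _).trans ?_
      have h7 := norm_sub_le (D n') (D n)
      have h8 := norm_sub_le (D y) (D x)
      linarith [hDK n hn, hDK n' hn', hDU x (h1 x hx), hDU y (h1 y hy)]
    have hkl : k = l := by
      by_contra hkl
      rw [norm_smul] at h6
      have h7 : (1 : ℝ) ≤ ‖(k : ℝ) - l‖ := by
        rw [Real.norm_eq_abs]
        have : (1 : ℤ) ≤ |(k : ℤ) - l| := Int.one_le_abs (by omega)
        have h8 : ((1 : ℤ) : ℝ) ≤ ((|(k : ℤ) - l| : ℤ) : ℝ) := by exact_mod_cast this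
        simpa using h8
      nlinarith [norm_nonneg (D Y)]
    subst hkl
    refine ⟨?_, rfl⟩
    by_contra hxy
    rw [← mul_assoc, ← mul_assoc] at he
    exact h2 x hx y hy hxy n hn n' hn' (mul_right_cancel he)
  obtain ⟨k0, hk0⟩ := hK
  have hinj : Set.InjOn (fun p : E × ℕ => p.1 * Y ^ p.2) (X ×ˢ Finset.range (m + 1) : Finset (E × ℕ)) := by
    rintro ⟨x, k⟩ hx ⟨y, l⟩ hy he
    simp only [Finset.coe_product, Set.mem_prod, Finset.mem_coe, Finset.mem_range] at hx hy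
    simp only at he
    obtain ⟨h4, h5⟩ := key x hx.1 y hy.1 k l k0 hk0 k0 hk0 (by rw [he])
    rw [h4, h5]
  have h4 := le_pkn (K := K) (U := U'') hb''
    (X := (X ×ˢ Finset.range (m + 1)).image fun p => p.1 * Y ^ p.2) (fun z hz => by
      obtain ⟨⟨x, k⟩, hx, rfl⟩ := Finset.mem_image.1 hz
      simp only [Finset.mem_product, Finset.mem_range] at hx
      exact hU x (h1 x hx.1) k (by omega)) (by
      intro z hz z' hz' hzz n hn n' hn' he
      obtain ⟨⟨x, k⟩, hx, rfl⟩ := Finset.mem_image.1 hz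
      obtain ⟨⟨y, l⟩, hy, rfl⟩ := Finset.mem_image.1 hz'
      simp only [Finset.mem_product, Finset.mem_range] at hx hy he hzz
      obtain ⟨h5, h6⟩ := key x hx.1 y hy.1 k l n hn n' hn' he
      exact hzz (by rw [h5, h6]))
  rw [Finset.card_image_of_injOn hinj, Finset.card_product, Finset.card_range, h3] at h4
  rwa [mul_comm]

/-- replacement of the points of a separated family -/
theorem Sep.replace {K K'' : Set E} (hK : K.Nonempty) {X : Finset E} (hs : Sep K'' X) (g : E → E)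
    (hg : ∀ x ∈ X, ∀ n ∈ K, n * g x * x⁻¹ ∈ K'') :
    ∃ X' : Finset E, X'.card = X.card ∧ Sep K X' ∧ ∀ y ∈ X', ∃ x ∈ X, y = g x := by
  classical
  have key : ∀ x ∈ X, ∀ y ∈ X, ∀ n ∈ K, ∀ n' ∈ K, n * g x = n' * g y → x = y := by
    intro x hx y hy n hn n' hn' he
    by_contra hxy
    refine hs x hx y hy hxy _ (hg x hx n hn) _ (hg y hy n' hn') ?_
    rw [inv_mul_cancel_right, inv_mul_cancel_right, he]
  obtain ⟨k, hk⟩ := hK
  refine ⟨X.image g, Finset.card_image_of_injOn ?_, ?_, ?_⟩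
  · intro x hx y hy he
    exact key x hx y hy k hk k hk (by rw [he])
  · intro x hx y hy hxy n hn n' hn' he
    obtain ⟨x', hx', rfl⟩ := Finset.mem_image.1 hx
    obtain ⟨y', hy', rfl⟩ := Finset.mem_image.1 hy
    exact hxy (by rw [key x' hx' y' hy' n hn n' hn' he])
  · intro y hy
    obtain ⟨x, hx, rfl⟩ := Finset.mem_image.1 hy
    exact ⟨x, hx, rfl⟩

section meas

variable [MeasurableSpace E] {ν : Measure E}
  (hν : ∀ g : E, MeasurePreserving (fun x => x * g) ν ν)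

include hν

theorem card_sep_le {K W U : Set E} (hK : MeasurableSet K) (hW : ∀ n ∈ K, ∀ u ∈ U, n * u ∈ W)
    {X : Finset E} (hX : ∀ x ∈ X, x ∈ U) (hs : Sep K X) : (X.card : ℝ≥0∞) * ν K ≤ ν W :=
  card_mul_le hν hK X id (fun x hx n hn => hW n hn x (hX x hx))
    fun x hx y hy hxy n hn n' hn' => hs x hx y hy hxy n hn n' hn'

theorem PK_bdd {K W U : Set E} (hK : MeasurableSet K) (hW : ∀ n ∈ K, ∀ u ∈ U, n * u ∈ W)
    (hK0 : ν K ≠ 0) (hW1 : ν W ≠ ⊤) : BddAbove (PK K U) := by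
  have h0 : ν W / ν K ≠ ⊤ := ENNReal.div_ne_top hW1 hK0
  refine ⟨⌊(ν W / ν K).toReal⌋₊, ?_⟩
  rintro _ ⟨X, h1, h2, rfl⟩
  have h3 := card_sep_le hν hK hW h1 h2
  refine Nat.le_floor ?_
  have h4 : (X.card : ℝ≥0∞) ≤ ν W / ν K := by
    by_cases hKt : ν K = ⊤
    · rcases Nat.eq_zero_or_pos X.card with h | h
      · rw [h]; simp
      · exfalso
        rw [hKt, ENNReal.mul_top (by simpa using h.ne'), top_le_iff] at h3
        exact hW1 h3
    · exact (ENNReal.le_div_iff_mul_le (Or.inl hK0) (Or.inl hKt)).2 h3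
  have h5 := ENNReal.toReal_mono h0 h4
  simpa using h5

/-- the packing number is bounded by the volume -/
theorem pkn_mul_le {K W U : Set E} (hK : MeasurableSet K) (hW : ∀ n ∈ K, ∀ u ∈ U, n * u ∈ W)
    (hb : BddAbove (PK K U)) : (pkn K U : ℝ≥0∞) * ν K ≤ ν W := by
  obtain ⟨X, h1, h2, h3⟩ := exists_pkn hb
  rw [← h3]
  exact card_sep_le hν hK hW h1 h2

/-- change of `K` -/
theorem pkn_change {K K' U W : Set E} (hK : MeasurableSet K) (hK' : K'.Nonempty)
    (hW : ∀ k ∈ K, ∀ n ∈ K', ∀ n' ∈ K', k * (n⁻¹ * n') ∈ W)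
    (hb : BddAbove (PK K U)) (hb' : BddAbove (PK K' U)) (hWm : MeasurableSet W) :
    (pkn K U : ℝ≥0∞) * ν K ≤ pkn K' U * ν W := by
  obtain ⟨X, h1, h2, h3⟩ := exists_pkn hb
  obtain ⟨X', h1', h2', h3', h4'⟩ := exists_max hK' hb'
  rw [← h3, ← h3']
  have h5 : (X.card : ℝ≥0∞) * ν K ≤ ν (⋃ x' ∈ X', (fun z => z * x'⁻¹) ⁻¹' W) := by
    refine card_mul_le hν hK X id (fun x hx n hn => ?_)
      fun x hx y hy hxy n hn n' hn' => h2 x hx y hy hxy n hn n' hn'
    obtain ⟨x', hx', k, hk, k', hk', he⟩ := h4' x (h1 x hx)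
    refine mem_iUnion₂.2 ⟨x', hx', ?_⟩
    show n * x * x'⁻¹ ∈ W
    have h6 : n * x * x'⁻¹ = n * (k⁻¹ * k') := by
      have : x = k⁻¹ * (k' * x') := by rw [← he]; group
      rw [this]; group
    rw [h6]
    exact hW n hn k hk k' hk'
  refine h5.trans ((measure_biUnion_finset_le _ _).trans ?_)
  refine (Finset.sum_le_card_nsmul X' _ (ν W) fun x' _ => ?_).trans (by rw [nsmul_eq_mul])
  rw [(hν x'⁻¹).measure_preimage hWm.nullMeasurableSet]

end meas

end pack

end Vale.Agent.P188.H8
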