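import Vale.Agent.P188.H8.PureD
import Vale.Agent.P188.H8.Pack

/-!
# P188, route B (ES): covering of pure boxes by translates of smaller pure boxes
-/

open Finset Filter Topology Pointwise MeasureTheory

set_option linter.all false

namespace Vale.Agent.P188.H8

open Vale.Agent.P188.H796 Vale.Agent.P188.H615 Vale.Agent.P188.H131

section cover

variable {N : Type} [Group N] {d n : ℕ} {D : MB N d n} {A : Type} [NormedRing A]
  [NormedAlgebra ℝ A] [FiniteDimensional ℝ A] {R : RD D A} {ι : Type} [Fintype ι]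

/-- the pure group -/
noncomputable abbrev PG (X : ι → R.V) (p : ι → Prop) : Subgroup R.NR :=
  ExS R (pu X p) (pu_lie X p)

/-- exponential -/
noncomputable def toPG {X : ι → R.V} {p : ι → Prop} (v : pu X p) : PG X p :=
  ⟨R.Ex (v : R.V), by rw [mem_ExS, R.Lo_Ex]; exact v.2⟩

theorem coe_toPG {X : ι → R.V} {p : ι → Prop} (v : pu X p) :
    ((toPG v : PG X p) : R.NR) = R.Ex (v : R.V) := rfl

variable [MeasurableSpace A] [BorelSpace A]

theorem card_log {X : ι → R.V} {p : ι → Prop} (ν : Measure (pu X p)) [ν.IsAddHaarMeasure]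
    {K W : Set (pu X p)} (hK : MeasurableSet K) (F : Finset (PG X p))
    (hsub : ∀ f ∈ F, ∀ v ∈ K, RT (pu_lie X p) f v ∈ W)
    (hdis : ∀ f ∈ F, ∀ f' ∈ F, f ≠ f' → ∀ v ∈ K, ∀ v' ∈ K, toPG v * f ≠ toPG v' * f') :
    (F.card : ENNReal) * ν K ≤ ν W := by
  have h1 : ∀ f : PG X p, ν (RT (pu_lie X p) f⁻¹ ⁻¹' K) = ν K := fun f =>
    (mp_RT (pu_lie X p) ν f⁻¹).measure_preimage hK.nullMeasurableSet
  have h2 : ν (⋃ f ∈ F, RT (pu_lie X p) f⁻¹ ⁻¹' K) = ∑ f ∈ F, ν (RT (pu_lie X p) f⁻¹ ⁻¹' K) := by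
    refine measure_biUnion_finset ?_ fun f _ => (mp_RT (pu_lie X p) ν f⁻¹).measurable hK
    intro f hf f' hf' hff
    rw [Function.onFun, Set.disjoint_left]
    intro w hw hw'
    refine hdis f hf f' hf' hff _ hw _ hw' ?_
    apply Subtype.ext
    rw [Subgroup.coe_mul, Subgroup.coe_mul, coe_toPG, coe_toPG, Ex_RT, Ex_RT]
    simp
  have h3 : ∀ (f : PG X p) (w : pu X p), RT (pu_lie X p) f (RT (pu_lie X p) f⁻¹ w) = w := by
    intro f w
    apply Subtype.ext
    rw [coe_RT, Ex_RT]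
    simp [R.Lo_Ex]
  calc (F.card : ENNReal) * ν K = ∑ f ∈ F, ν (RT (pu_lie X p) f⁻¹ ⁻¹' K) := by
        rw [Finset.sum_congr rfl fun f _ => h1 f, Finset.sum_const, nsmul_eq_mul]
    _ = ν (⋃ f ∈ F, RT (pu_lie X p) f⁻¹ ⁻¹' K) := h2.symm
    _ ≤ ν W := by
        refine measure_mono ?_
        intro w hw
        obtain ⟨f, hf, hw⟩ := Set.mem_iUnion₂.1 hw
        have := hsub f hf _ hw
        rwa [h3] at this

/-- boxes as subsets of the pure group -/
def PB (X : ι → R.V) (p : ι → Prop) (r : ι → ℝ) : Set (PG X p) :=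
  {x | R.Lo (x : R.NR) ∈ nb (LB X (on p r))}

/-- **covering** -/
theorem exists_cover (R : RD D A) (X : ι → R.V) (p : ι → Prop) (C' : ℝ) (hC' : 1 ≤ C') :
    ∃ n : ℕ, ∀ r : ι → ℝ, (∀ i, 0 ≤ r i) → (∀ i, p i → 0 < r i) →
      ∃ F : Finset (PG X p), F.card ≤ n ∧ (∀ f ∈ F, f ∈ PB X p fun i => C' * r i) ∧
        ∀ u ∈ PB X p (fun i => C' * r i), ∃ f ∈ F, u * f⁻¹ ∈ PB X p r := by
  classical
  have hm1 : (1 : ℝ) ≤ R.m := by exact_mod_cast R.hm0
  set C0 : ℝ := (R.m : ℝ) ^ 2 * 2 ^ R.m with hC0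
  have hC0n : 0 ≤ C0 := by positivity
  obtain ⟨C1, hC1, H1⟩ := exists_mul R (C0 := C0) hC0n
  set L : ℝ := C' ^ R.m with hL
  have hL1 : 1 ≤ L := one_le_pow₀ hC'
  obtain ⟨C2, hC2, H2⟩ := exists_mul R (C0 := L * C0) (by positivity)
  set δ : ℝ := (1 + C1)⁻¹ with hδ
  have hδ0 : 0 < δ := by positivity
  have hδ1 : δ ≤ 1 := inv_le_one_of_one_le₀ (by linarith)
  let ν : Measure (pu X p) := Measure.addHaar
  set q : ℝ := (1 + C2) * L / δ with hq
  have hq0 : 0 < q := by positivity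
  refine ⟨⌊(q ^ Module.finrank ℝ (pu X p))⌋₊, fun r hr hr' => ?_⟩
  set B : Set R.V := nb (LB X (on p r)) with hB
  have hBc : CSV R B C0 := csv_nb (csy_LB X _)
  -- the small box
  set K : Set (PG X p) := {x | R.Lo (x : R.NR) ∈ δ • B} with hK
  set Kl : Set (pu X p) := δ • Ub X p r with hKl
  have hKl' : ∀ v : pu X p, v ∈ Kl ↔ (v : R.V) ∈ δ • B := by
    intro v
    constructor
    · rintro ⟨w, hw, rfl⟩
      exact ⟨(w : R.V), hw, rfl⟩
    · rintro ⟨w, hw, hwv⟩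
      exact ⟨⟨w, nb_on_le X p r hw⟩, hw, Subtype.ext hwv⟩
  have hUpos : ν (Ub X p r) ≠ 0 := Ub_pos ν hr'
  have hUfin : ν (Ub X p r) ≠ ⊤ := (Ub_fin ν r).ne
  have hvol : ∀ c : ℝ, 0 ≤ c → ν (c • Ub X p r) =
      ENNReal.ofReal (c ^ Module.finrank ℝ (pu X p)) * ν (Ub X p r) := by
    intro c hc
    have h2 := Measure.addHaar_smul ν c (Ub X p r)
    rwa [abs_of_nonneg (by positivity)] at h2
  have hKm : MeasurableSet Kl := by
    have : IsCompact Kl := (Ub_isCompact X p r).smul δ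
    exact this.measurableSet
  set U : Set (PG X p) := PB X p fun i => C' * r i with hU
  have hUs : ∀ u ∈ U, R.Lo (u : R.NR) ∈ L • B := by
    intro u hu
    have h2 : R.Lo (u : R.NR) ∈ nb (LB X (on p fun i => C' * r i)) := hu
    rw [← on_mul, ← smul_LB] at h2
    exact nb_smul_sub (csy_LB X _) hC' h2
  -- counting
  have hcard : ∀ F : Finset (PG X p), (∀ f ∈ F, f ∈ U) → Sep K F →
      F.card ≤ ⌊(q ^ Module.finrank ℝ (pu X p))⌋₊ := by
    intro F hF hs
    have h1 := card_log ν (K := Kl) (W := ((1 + C2) * L) • Ub X p r) hKm F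
      (fun f hf v hv => by
        have h3 := (H2 (L • B) (hBc.smul (by positivity)) (f : R.NR) (hUs f (hF f hf)) 1
          zero_le_one le_rfl (R.Ex (v : R.V)) (by
            rw [one_smul, mem_EK, R.Lo_Ex]
            exact hBc.mem_mono hδ0.le (by linarith) ((hKl' v).1 hv))).2
        rw [mul_one, smul_smul, mem_EK] at h3
        obtain ⟨w, hw, hwv⟩ := h3
        refine ⟨⟨w, nb_on_le X p r hw⟩, hw, Subtype.ext ?_⟩
        rw [coe_RT]
        exact hwv)
      (fun f hf f' hf' hff v hv v' hv' => hs f hf f' hf' hff (toPG v) (by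
          show R.Lo (R.Ex (v : R.V)) ∈ δ • B
          rw [R.Lo_Ex]; exact (hKl' v).1 hv) (toPG v') (by
          show R.Lo (R.Ex (v' : R.V)) ∈ δ • B
          rw [R.Lo_Ex]; exact (hKl' v').1 hv'))
    rw [hKl, hvol δ hδ0.le, hvol _ (by positivity), ← mul_assoc] at h1
    have h2 := (ENNReal.mul_le_mul_iff_left hUpos hUfin).1 h1
    refine Nat.le_floor ?_
    have h3 : (F.card : ENNReal) * ENNReal.ofReal (δ ^ Module.finrank ℝ (pu X p)) =
        ENNReal.ofReal (F.card * δ ^ Module.finrank ℝ (pu X p)) := by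
      rw [ENNReal.ofReal_mul (by positivity), ENNReal.ofReal_natCast]
    rw [h3, ENNReal.ofReal_le_ofReal_iff (by positivity)] at h2
    rw [hq, div_pow, le_div_iff₀ (by positivity)]
    exact h2
  have hbdd : BddAbove (PK K U) := by
    refine ⟨⌊(q ^ Module.finrank ℝ (pu X p))⌋₊, ?_⟩
    rintro _ ⟨F, h1, h2, rfl⟩
    exact hcard F h1 h2
  have hKne : K.Nonempty := ⟨1, by
    show R.Lo ((1 : PG X p) : R.NR) ∈ δ • B
    rw [Subgroup.coe_one, Lo_one]
    exact ⟨0, hBc.zero, by simp⟩⟩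
  obtain ⟨F, h1, h2, h3, h4⟩ := exists_max hKne hbdd
  refine ⟨F, hcard F h1 h2, h1, fun u hu => ?_⟩
  obtain ⟨f, hf, k, hk, k', hk', he⟩ := h4 u hu
  refine ⟨f, hf, ?_⟩
  have h5 : u * f⁻¹ = k⁻¹ * k' := by
    rw [← mul_right_inj k, ← mul_assoc, he]; group
  rw [h5]
  have h6 := (H1 (δ • B) (Vale.Agent.P188.H8.CSV.mono (hBc.smul hδ0.le) (by nlinarith)) ((k⁻¹ : PG X p) : R.NR) (by
    rw [mem_EK, Subgroup.coe_inv, Lo_inv]
    exact hBc.mem_neg hk) 1 zero_le_one le_rfl (k' : R.NR) (by rw [one_smul]; exact hk')).1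
  rw [mul_one, smul_smul, mem_EK, hδ, mul_inv_cancel₀ (by positivity), one_smul] at h6
  exact h6

end cover

end Vale.Agent.P188.H8
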