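import Vale.Agent.P188.H8.PureC
import Vale.Agent.P188.H615.NatI

/-!
# P188, route B (ES): natural boxes in terms of words of letters

`nb (LB X σ)` is, up to a constant, the set of the sums `∑ w, c w • β w` over the right-normed words
`w` of length at most the class, `|c w| ≤` product of the sizes of the letters of `w`.
-/

open Finset Filter Topology Pointwise MeasureTheory

set_option linter.all false

namespace Vale.Agent.P188.H8

open Vale.Agent.P188.H796 Vale.Agent.P188.H615 Vale.Agent.P188.H131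

/-- words of length `k + 1` -/
def Wr (ι : Type) : ℕ → Type
  | 0 => ι
  | k + 1 => ι × Wr ι k

instance Wr.fintype (ι : Type) [Fintype ι] : (k : ℕ) → Fintype (Wr ι k)
  | 0 => inferInstanceAs (Fintype ι)
  | k + 1 => letI := Wr.fintype ι k; inferInstanceAs (Fintype (ι × Wr ι k))

/-- product of the sizes -/
def wsz {ι : Type} (σ : ι → ℝ) : (k : ℕ) → Wr ι k → ℝ
  | 0 => fun a => σ a
  | k + 1 => fun w => σ w.1 * wsz σ k w.2

/-- sum of the weights -/
def wsum {ι W : Type} [AddCommGroup W] (f : ι → W) : (k : ℕ) → Wr ι k → W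
  | 0 => fun a => f a
  | k + 1 => fun w => f w.1 + wsum f k w.2

/-- all the letters are in `p` -/
def wall {ι : Type} (p : ι → Prop) : (k : ℕ) → Wr ι k → Prop
  | 0 => fun a => p a
  | k + 1 => fun w => p w.1 ∧ wall p k w.2

theorem wsz_nonneg {ι : Type} {σ : ι → ℝ} (h : ∀ i, 0 ≤ σ i) (k : ℕ) (w : Wr ι k) :
    0 ≤ wsz σ k w := by
  induction k with
  | zero => exact h w
  | succ k ih => exact mul_nonneg (h _) (ih _)

theorem wsz_on {ι : Type} {p : ι → Prop} {σ : ι → ℝ} (k : ℕ) (w : Wr ι k) (hw : wall p k w) :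
    wsz (on p σ) k w = wsz σ k w := by
  induction k with
  | zero => exact if_pos hw
  | succ k ih =>
    change on p σ w.1 * wsz (on p σ) k w.2 = σ w.1 * wsz σ k w.2
    rw [ih _ hw.2]
    congr 1
    exact if_pos hw.1

theorem wsz_on' {ι : Type} {p : ι → Prop} {σ : ι → ℝ} (k : ℕ) (w : Wr ι k) (hw : ¬ wall p k w) :
    wsz (on p σ) k w = 0 := by
  induction k with
  | zero => exact if_neg hw
  | succ k ih =>
    change on p σ w.1 * wsz (on p σ) k w.2 = 0
    by_cases h1 : p w.1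
    · rw [ih _ (fun h => hw ⟨h1, h⟩), mul_zero]
    · rw [show on p σ w.1 = 0 from if_neg h1, zero_mul]

section words

variable {N : Type} [Group N] {d n : ℕ} {D : MB N d n} {A : Type} [NormedRing A]
  [NormedAlgebra ℝ A] [FiniteDimensional ℝ A] {R : RD D A} {ι : Type} [Fintype ι]

/-- the bracket of a word -/
def bet (X : ι → R.V) : (k : ℕ) → Wr ι k → R.V
  | 0 => fun a => X a
  | k + 1 => fun w => ⁅X w.1, bet X k w.2⁆

theorem nbk_expand (X : ι → R.V) {σ : ι → ℝ} (hσ : ∀ i, 0 ≤ σ i) (k : ℕ) :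
    ∀ v ∈ nbk (LB X σ) k, ∃ c : Wr ι k → ℝ, (∀ w, |c w| ≤ wsz σ k w) ∧
      v = ∑ w, c w • bet X k w := by
  induction k with
  | zero =>
    rintro _ ⟨y, hy, rfl⟩
    refine ⟨fun i => y i * σ i, fun i => ?_, ?_⟩
    · rw [abs_mul, abs_of_nonneg (hσ i)]
      exact mul_le_of_le_one_left (hσ i) (hy i)
    · refine Finset.sum_congr rfl fun i _ => ?_
      rw [mul_smul]
      rfl
  | succ k ih =>
    have hc : Convex ℝ {v : R.V | ∃ c : Wr ι (k + 1) → ℝ, (∀ w, |c w| ≤ wsz σ (k + 1) w) ∧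
        v = ∑ w, c w • bet X (k + 1) w} := by
      rintro _ ⟨c, hc, rfl⟩ _ ⟨c', hc', rfl⟩ a b ha hb hab
      refine ⟨fun w => a * c w + b * c' w, fun w => ?_, ?_⟩
      · refine (abs_add_le _ _).trans ?_
        rw [abs_mul, abs_mul, abs_of_nonneg ha, abs_of_nonneg hb]
        have h1 := mul_le_mul_of_nonneg_left (hc w) ha
        have h2 := mul_le_mul_of_nonneg_left (hc' w) hb
        have h3 : a * wsz σ (k + 1) w + b * wsz σ (k + 1) w = wsz σ (k + 1) w := by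
          rw [← add_mul, hab, one_mul]
        linarith
      · rw [smul_sum, smul_sum, ← sum_add_distrib]
        exact sum_congr rfl fun w _ => by rw [add_smul, mul_smul, mul_smul]
    have h1 : nbk (LB X σ) (k + 1) ⊆ {v : R.V | ∃ c : Wr ι (k + 1) → ℝ,
        (∀ w, |c w| ≤ wsz σ (k + 1) w) ∧ v = ∑ w, c w • bet X (k + 1) w} := by
      refine convexHull_min ?_ hc
      rintro _ ⟨x, ⟨y, hy, rfl⟩, z, hz, rfl⟩
      obtain ⟨c, hc, rfl⟩ := ih z hz
      refine ⟨fun w : ι × Wr ι k => (y w.1 * σ w.1) * c w.2, fun w => ?_, ?_⟩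
      · rw [abs_mul, abs_mul, abs_of_nonneg (hσ _)]
        change |y w.1| * σ w.1 * |c w.2| ≤ σ w.1 * wsz σ k w.2
        exact mul_le_mul (mul_le_of_le_one_left (hσ _) (hy _)) (hc _) (abs_nonneg _) (hσ _)
      · rw [sum_lie_sum]
        change _ = ∑ w : ι × Wr ι k, ((y w.1 * σ w.1) * c w.2) • ⁅X w.1, bet X k w.2⁆
        rw [Fintype.sum_prod_type]
        refine sum_congr rfl fun a _ => sum_congr rfl fun w _ => ?_
        rw [smul_lie, smul_lie, lie_smul, smul_smul, smul_smul]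
    exact h1

theorem letter_LB (X : ι → R.V) {σ : ι → ℝ} (hσ : ∀ i, 0 ≤ σ i) {a : ι} {x : ℝ} (hx : |x| ≤ σ a) :
    x • X a ∈ LB X σ := by
  classical
  have h2 : x • X a = ∑ b, (if b = a then x else 0) • X b := by
    rw [Finset.sum_eq_single a]
    · rw [if_pos rfl]
    · intro b _ hb; rw [if_neg hb, zero_smul]
    · intro h; exact absurd (mem_univ _) h
  rw [h2]
  refine mem_LB_of_le X _ fun b => ?_
  by_cases hb : b = a
  · subst hb; rwa [if_pos rfl]
  · rw [if_neg hb, abs_zero]; exact hσ b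

theorem smul_bet_mem (X : ι → R.V) {σ : ι → ℝ} (hσ : ∀ i, 0 ≤ σ i) (k : ℕ) :
    ∀ (w : Wr ι k) (c : ℝ), |c| ≤ wsz σ k w → c • bet X k w ∈ nbk (LB X σ) k := by
  induction k with
  | zero => exact fun w c hc => letter_LB X hσ hc
  | succ k ih =>
    intro w c hc
    change |c| ≤ σ w.1 * wsz σ k w.2 at hc
    rcases (hσ w.1).eq_or_lt with h | h
    · rw [← h, zero_mul] at hc
      rw [abs_nonpos_iff.1 hc, zero_smul]
      exact (csy_nbk (csy_LB X σ) (k + 1)).zero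
    · have h1 : c • bet X (k + 1) w = ⁅σ w.1 • X w.1, (c / σ w.1) • bet X k w.2⁆ := by
        rw [smul_lie, lie_smul, smul_smul, mul_div_cancel₀ _ h.ne']
        rfl
      rw [h1]
      refine lie_mem_nbk (letter_LB X hσ (le_of_eq (abs_of_pos h))) (ih _ _ ?_)
      rw [abs_div, abs_of_pos h, div_le_iff₀ h, mul_comm]
      exact hc

/-- words of all lengths -/
abbrev AW (R : RD D A) (ι : Type) := (j : Fin R.m) × Wr ι j

theorem nb_expand (X : ι → R.V) {σ : ι → ℝ} (hσ : ∀ i, 0 ≤ σ i) {v : R.V}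
    (hv : v ∈ nb (LB X σ)) : ∃ c : AW R ι → ℝ, (∀ w, |c w| ≤ wsz σ w.1 w.2) ∧
      v = ∑ w : AW R ι, c w • bet X w.1 w.2 := by
  obtain ⟨x, hx, rfl⟩ := hv
  have h1 := fun i : Fin R.m => nbk_expand X hσ i (x i) (hx i)
  choose c hc hxc using h1
  refine ⟨fun w => c w.1 w.2, fun w => hc _ _, ?_⟩
  rw [Fintype.sum_sigma]
  exact sum_congr rfl fun i _ => hxc i

theorem nb_contract (X : ι → R.V) {σ : ι → ℝ} (hσ : ∀ i, 0 ≤ σ i) {K : ℝ} (hK : 0 < K)
    {c : AW R ι → ℝ} (hc : ∀ w, |c w| ≤ K * wsz σ w.1 w.2) :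
    ∑ w : AW R ι, c w • bet X w.1 w.2 ∈ (Fintype.card (AW R ι) * K) • nb (LB X σ) := by
  have hcs := csy_nb (csy_LB X σ)
  have h1 := hcs.mem_sum (univ : Finset (AW R ι)) (fun _ => K) (fun w => c w • bet X w.1 w.2)
    (fun _ _ => hK.le) (fun w _ => by
      refine ⟨(c w / K) • bet X w.1 w.2, nbk_sub_nb (csy_LB X σ) w.1
        (smul_bet_mem X hσ w.1 w.2 _ ?_), ?_⟩
      · rw [abs_div, abs_of_pos hK, div_le_iff₀ hK, mul_comm]
        exact hc w
      · simp only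
        rw [smul_smul, mul_div_cancel₀ _ hK.ne'])
  rwa [sum_const, nsmul_eq_mul, card_univ] at h1

/-- **comparison of a pure element in two boxes** -/
theorem kc (R : RD D A) {W : Type} [AddCommGroup W] (X : ι → R.V) (wt : ι → W)
    (P : W → (R.V →ₗ[ℝ] R.V))
    (hP : ∀ (w : AW R ι), P (wsum wt w.1 w.2) (bet X w.1 w.2) = bet X w.1 w.2)
    (hP' : ∀ (w : AW R ι) (b : W), b ≠ wsum wt w.1 w.2 → P b (bet X w.1 w.2) = 0)
    (p : ι → Prop) : ∃ C : ℝ, 1 ≤ C ∧ ∀ K : ℝ, 1 ≤ K → ∀ σ σ' τ' : ι → ℝ, (∀ i, 0 ≤ σ i) →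
      (∀ i, 0 ≤ σ' i) → (∀ i, 0 ≤ τ' i) →
      (∀ w w' : AW R ι, ¬ wall p w.1 w.2 → wall p w'.1 w'.2 →
        wsum wt w'.1 w'.2 = wsum wt w.1 w.2 →
        wsz τ' w'.1 w'.2 ≤ wsz σ w.1 w.2 ∧ wsz σ' w'.1 w'.2 ≤ wsz σ w.1 w.2) →
      (∀ w : AW R ι, wall p w.1 w.2 → wsz σ' w.1 w.2 ≤ K * wsz σ w.1 w.2) →
      ∀ v : R.V, v ∈ nb (LB X σ') → v ∈ nb (LB X (on p τ')) → v ∈ (C * K) • nb (LB X σ) := by
  classical
  -- constants for the re-expansion
  have hsp : ∀ b : W, ∃ C : ℝ, 0 ≤ C ∧ ∀ v ∈ Submodule.span ℝ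
      ((fun w : AW R ι => bet X w.1 w.2) '' {w | ¬ wall p w.1 w.2 ∧ wsum wt w.1 w.2 = b}),
      ∃ a : AW R ι → ℝ, v = ∑ w, a w • bet X w.1 w.2 ∧
        (∀ w, ¬ (¬ wall p w.1 w.2 ∧ wsum wt w.1 w.2 = b) → a w = 0) ∧
        ∀ w, |a w| ≤ C * ‖(v : A)‖ := fun b =>
    span_coord (fun w : AW R ι => bet X w.1 w.2)
      (fun w => ¬ wall p w.1 w.2 ∧ wsum wt w.1 w.2 = b) _ le_rfl
  choose Cb hCb0 hCb using hsp
  set Bs : Finset W := univ.image fun w : AW R ι => wsum wt w.1 w.2 with hBs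
  set Cm : ℝ := ∑ b ∈ Bs, Cb b with hCm
  have hCm0 : 0 ≤ Cm := sum_nonneg fun b _ => hCb0 b
  set Bβ : ℝ := ∑ w : AW R ι, ‖((bet X w.1 w.2 : R.V) : A)‖ with hBβ
  have hBβ0 : 0 ≤ Bβ := sum_nonneg fun _ _ => norm_nonneg _
  set Nw : ℝ := ((Fintype.card (AW R ι) : ℕ) : ℝ) with hNw
  have hNw0 : 0 ≤ Nw := Nat.cast_nonneg _
  refine ⟨1 + Nw * (1 + Cm * (2 * Bβ)), ?_, ?_⟩
  · have : 0 ≤ Nw * (1 + Cm * (2 * Bβ)) := by positivity
    linarith
  intro K hK σ σ' τ' hσ hσ' hτ' h1 h2 v hv1 hv2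
  obtain ⟨c, hc, hvc⟩ := nb_expand X hσ' hv1
  obtain ⟨e, he, hve⟩ := nb_expand X (on_nonneg hτ') hv2
  have he0 : ∀ w : AW R ι, ¬ wall p w.1 w.2 → e w = 0 := by
    intro w hw
    have := he w
    rw [wsz_on' _ _ hw] at this
    exact abs_nonpos_iff.1 this
  have he1 : ∀ w : AW R ι, wall p w.1 w.2 → |e w| ≤ wsz τ' w.1 w.2 := by
    intro w hw
    have := he w
    rwa [wsz_on _ _ hw] at this
  -- the projections
  have hPs : ∀ (f : AW R ι → ℝ) (b : W), P b (∑ w, f w • bet X w.1 w.2) =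
      ∑ w, (if wsum wt w.1 w.2 = b then f w else 0) • bet X w.1 w.2 := by
    intro f b
    rw [map_sum]
    refine sum_congr rfl fun w _ => ?_
    rw [map_smul]
    by_cases h : wsum wt w.1 w.2 = b
    · subst h; rw [if_pos rfl, hP]
    · rw [if_neg h, hP' w b (Ne.symm h), smul_zero, zero_smul]
  -- the mixed part of weight b
  let mb : W → R.V := fun b =>
    ∑ w : AW R ι, (if ¬ wall p w.1 w.2 ∧ wsum wt w.1 w.2 = b then c w else 0) • bet X w.1 w.2
  have hmb : ∀ b, mb b = ∑ w : AW R ι,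
      (if wall p w.1 w.2 ∧ wsum wt w.1 w.2 = b then e w - c w else 0) • bet X w.1 w.2 := by
    intro b
    have h3 : ∑ w : AW R ι, (if wsum wt w.1 w.2 = b then c w else 0) • bet X w.1 w.2 =
        ∑ w : AW R ι, (if wsum wt w.1 w.2 = b then e w else 0) • bet X w.1 w.2 := by
      rw [← hPs, ← hPs, ← hvc, ← hve]
    have h4 : mb b = ∑ w : AW R ι, (if wsum wt w.1 w.2 = b then c w else 0) • bet X w.1 w.2 -
        ∑ w : AW R ι, (if wall p w.1 w.2 ∧ wsum wt w.1 w.2 = b then c w else 0) •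
          bet X w.1 w.2 := by
      rw [← sum_sub_distrib]
      refine sum_congr rfl fun w _ => ?_
      rw [← sub_smul]
      congr 1
      by_cases a1 : wall p w.1 w.2 <;> by_cases a2 : wsum wt w.1 w.2 = b <;> simp [a1, a2]
    rw [h4, h3, ← sum_sub_distrib]
    refine sum_congr rfl fun w _ => ?_
    rw [← sub_smul]
    congr 1
    by_cases a1 : wall p w.1 w.2 <;> by_cases a2 : wsum wt w.1 w.2 = b <;> simp [a1, a2, he0 w]
  have hmb_mem : ∀ b, mb b ∈ Submodule.span ℝ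
      ((fun w : AW R ι => bet X w.1 w.2) '' {w | ¬ wall p w.1 w.2 ∧ wsum wt w.1 w.2 = b}) := by
    intro b
    refine Submodule.sum_mem _ fun w _ => ?_
    by_cases h : ¬ wall p w.1 w.2 ∧ wsum wt w.1 w.2 = b
    · exact Submodule.smul_mem _ _ (Submodule.subset_span ⟨w, h, rfl⟩)
    · rw [if_neg h, zero_smul]; exact Submodule.zero_mem _
  have h5 := fun b => hCb b (mb b) (hmb_mem b)
  choose a ha1 ha2 ha3 using h5
  -- norms
  have hnorm : ∀ w : AW R ι, ¬ wall p w.1 w.2 →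
      ‖((mb (wsum wt w.1 w.2) : R.V) : A)‖ ≤ (2 * Bβ) * wsz σ w.1 w.2 := by
    intro w hw
    rw [hmb, Submodule.coe_sum]
    refine (norm_sum_le _ _).trans ?_
    rw [hBβ, mul_sum, sum_mul]
    refine sum_le_sum fun w' _ => ?_
    rw [Submodule.coe_smul, norm_smul, Real.norm_eq_abs]
    have hwz := wsz_nonneg hσ w.1 w.2
    have hb0 : 0 ≤ ‖((bet X w'.1 w'.2 : R.V) : A)‖ := norm_nonneg _
    by_cases h : wall p w'.1 w'.2 ∧ wsum wt w'.1 w'.2 = wsum wt w.1 w.2
    · rw [if_pos h]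
      obtain ⟨h6, h7⟩ := h1 w w' hw h.1 h.2
      have h8 : |e w' - c w'| ≤ 2 * wsz σ w.1 w.2 := by
        have := abs_sub (e w') (c w')
        have h9 := he1 w' h.1
        have h10 := hc w'
        linarith
      have := mul_le_mul_of_nonneg_right h8 hb0
      linarith
    · rw [if_neg h, abs_zero, zero_mul]
      positivity
  have hab : ∀ (b : W) (w : AW R ι), |a b w| ≤ Cb b * (2 * Bβ) * wsz σ w.1 w.2 := by
    intro b w
    by_cases h : ¬ wall p w.1 w.2 ∧ wsum wt w.1 w.2 = b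
    · obtain ⟨h6, rfl⟩ := h
      refine (ha3 _ w).trans ?_
      rw [mul_assoc]
      exact mul_le_mul_of_nonneg_left (hnorm w h6) (hCb0 _)
    · rw [ha2 b w h, abs_zero]
      exact mul_nonneg (mul_nonneg (hCb0 _) (by positivity)) (wsz_nonneg hσ w.1 w.2)
  -- assembly
  have hv3 : v = ∑ w : AW R ι, ((if wall p w.1 w.2 then c w else 0) + ∑ b ∈ Bs, a b w) •
      bet X w.1 w.2 := by
    have h6 : v = ∑ w : AW R ι, (if wall p w.1 w.2 then c w else 0) • bet X w.1 w.2 +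
        ∑ b ∈ Bs, mb b := by
      have h7 : ∑ b ∈ Bs, mb b =
          ∑ w : AW R ι, (if ¬ wall p w.1 w.2 then c w else 0) • bet X w.1 w.2 := by
        change ∑ b ∈ Bs, ∑ w : AW R ι, _ = _
        rw [sum_comm]
        refine sum_congr rfl fun w _ => ?_
        rw [Finset.sum_eq_single (wsum wt w.1 w.2)]
        · by_cases h : wall p w.1 w.2 <;> simp [h]
        · intro b _ hb
          rw [if_neg (fun h => hb h.2.symm), zero_smul]
        · intro h
          exact absurd (mem_image_of_mem _ (mem_univ w)) h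
      rw [h7, ← sum_add_distrib, hvc]
      refine sum_congr rfl fun w _ => ?_
      rw [← add_smul]
      congr 1
      by_cases h : wall p w.1 w.2 <;> simp [h]
    rw [h6]
    have h8 : ∑ b ∈ Bs, mb b = ∑ w : AW R ι, (∑ b ∈ Bs, a b w) • bet X w.1 w.2 := by
      rw [sum_congr rfl fun b _ => ha1 b, sum_comm]
      exact sum_congr rfl fun w _ => by rw [sum_smul]
    rw [h8, ← sum_add_distrib]
    exact sum_congr rfl fun w _ => by rw [add_smul]
  have hcoef : ∀ w : AW R ι, |(if wall p w.1 w.2 then c w else 0) + ∑ b ∈ Bs, a b w| ≤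
      (K * (1 + Cm * (2 * Bβ))) * wsz σ w.1 w.2 := by
    intro w
    have hwz := wsz_nonneg hσ w.1 w.2
    have h6 : |(if wall p w.1 w.2 then c w else 0)| ≤ K * wsz σ w.1 w.2 := by
      by_cases h : wall p w.1 w.2
      · rw [if_pos h]; exact (hc w).trans (h2 w h)
      · rw [if_neg h, abs_zero]; positivity
    have h7 : |∑ b ∈ Bs, a b w| ≤ Cm * (2 * Bβ) * wsz σ w.1 w.2 := by
      refine (abs_sum_le_sum_abs _ _).trans ((sum_le_sum fun b _ => hab b w).trans ?_)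
      rw [← sum_mul, ← sum_mul]
    have h8 : Cm * (2 * Bβ) * wsz σ w.1 w.2 ≤ K * (Cm * (2 * Bβ) * wsz σ w.1 w.2) :=
      le_mul_of_one_le_left (by positivity) hK
    refine (abs_add_le _ _).trans ?_
    have h9 : (K * (1 + Cm * (2 * Bβ))) * wsz σ w.1 w.2 = K * wsz σ w.1 w.2 +
        K * (Cm * (2 * Bβ) * wsz σ w.1 w.2) := by ring
    linarith
  have h9 := nb_contract X hσ (K := K * (1 + Cm * (2 * Bβ))) (by positivity) hcoef
  rw [← hv3] at h9
  refine (csy_nb (csy_LB X σ)).mem_mono (by positivity) ?_ h9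
  have h10 : (Fintype.card (AW R ι) : ℝ) * (K * (1 + Cm * (2 * Bβ))) =
      Nw * (1 + Cm * (2 * Bβ)) * K := by rw [hNw]; ring
  rw [h10, add_mul, one_mul]
  linarith

end words

end Vale.Agent.P188.H8
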