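import Vale.Agent.P188.H8.GeoQ
import Vale.Agent.P188.H8.WordX
import Vale.Agent.P188.H269.Proj
import Vale.Agent.P188.H650.Dict
import Vale.Agent.P188.H131.GeoInst

/-!
# P188, route B (ES): the field `H_ext`

In the windows the packing numbers of the ray `i` depend on the extents of `i` and of the neutral
letters only.
-/

open Finset Filter Topology Pointwise MeasureTheory

set_option linter.all false

namespace Vale.Agent.P188.H8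

open Vale.Agent.P188.H796 Vale.Agent.P188.H615 Vale.Agent.P188.H131 Vale.Agent.P188.Z1
open Vale.P188.H532 (sh bump exto)

/-! ### sums over words -/

theorem wsz_exp {ι : Type} (f : ι → ℝ) (k : ℕ) (w : Wr ι k) :
    wsz (fun a => Real.exp (f a)) k w = Real.exp (wsum f k w) := by
  induction k with
  | zero => rfl
  | succ k ih =>
    change Real.exp (f w.1) * wsz (fun a => Real.exp (f a)) k w.2 =
      Real.exp (f w.1 + wsum f k w.2)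
    rw [ih, Real.exp_add]

theorem wsum_map {ι W W' : Type} [AddCommGroup W] [AddCommGroup W'] (φ : W →+ W') (f : ι → W)
    (k : ℕ) (w : Wr ι k) : wsum (fun a => φ (f a)) k w = φ (wsum f k w) := by
  induction k with
  | zero => rfl
  | succ k ih =>
    change φ (f w.1) + wsum (fun a => φ (f a)) k w.2 = φ (f w.1 + wsum f k w.2)
    rw [ih, map_add]

theorem wsum_le {ι : Type} {p : ι → Prop} {f g : ι → ℝ} {c : ℝ} (h : ∀ a, p a → f a ≤ g a + c)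
    (k : ℕ) (w : Wr ι k) (hw : wall p k w) : wsum f k w ≤ wsum g k w + (k + 1) * c := by
  induction k with
  | zero =>
    have := h w hw
    change f w ≤ g w + ((0 : ℕ) + 1) * c
    push_cast
    linarith
  | succ k ih =>
    have h1 := h w.1 hw.1
    have h2 := ih w.2 hw.2
    change f w.1 + wsum f k w.2 ≤ g w.1 + wsum g k w.2 + ((k + 1 : ℕ) + 1) * c
    push_cast
    linarith

theorem wsum_ge {ι : Type} {f g : ι → ℝ} {c : ℝ} (h : ∀ a, g a - c ≤ f a)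
    (k : ℕ) (w : Wr ι k) : wsum g k w - (k + 1) * c ≤ wsum f k w := by
  induction k with
  | zero =>
    have := h w
    change g w - ((0 : ℕ) + 1) * c ≤ f w
    push_cast
    linarith
  | succ k ih =>
    have h1 := h w.1
    have h2 := ih w.2
    change g w.1 + wsum g k w.2 - ((k + 1 : ℕ) + 1) * c ≤ f w.1 + wsum f k w.2
    push_cast
    linarith

theorem wsum_mix {ι : Type} {p : ι → Prop} {f g : ι → ℝ} {c d : ℝ} (hc : 0 ≤ c)
    (h : ∀ a, g a - c ≤ f a) (h' : ∀ a, ¬ p a → g a + d ≤ f a) (k : ℕ) (w : Wr ι k)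
    (hw : ¬ wall p k w) : wsum g k w - (k + 1) * c + d ≤ wsum f k w := by
  induction k with
  | zero =>
    have := h' w hw
    change g w - ((0 : ℕ) + 1) * c + d ≤ f w
    push_cast
    linarith
  | succ k ih =>
    change g w.1 + wsum g k w.2 - ((k + 1 : ℕ) + 1) * c + d ≤ f w.1 + wsum f k w.2
    push_cast
    by_cases h1 : p w.1
    · have h2 := ih w.2 (fun h3 => hw ⟨h1, h3⟩)
      have h3 := h w.1
      linarith
    · have h2 := wsum_ge h k w.2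
      have h3 := h' w.1 h1
      linarith

section hext

variable {Γ : Type} [Group Γ] {k : ℕ} {η : Γ →* Multiplicative (Fin k → ℤ)} {d n : ℕ}
  {D : MB η.ker d n} {M : RModel D.S Γ D.R.V k} {J : Type} [DecidableEq J] (Rd : RayD M J)

/-- the words have weights -/
theorem bet_mem {hη : Function.Surjective η} {F : Set Γ} {t : D.S}
    (hM : Conc D hη F t M) (j : ℕ) (w : Wr M.ι j) :
    bet (R := D.R) M.X j w ∈ M.Vw (wsum M.wt j w) := by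
  induction j with
  | zero => exact M.X_mem w
  | succ j ih => exact hM.lie_Vw (M.X_mem w.1) (ih w.2)

omit [DecidableEq J] in
theorem wt_val (a : M.ι) (j : J) (h : Rd.ray a = some j) (u : Z1.Ht k) :
    M.wt a u = Rd.τ a * Rd.b j u := by
  rw [Rd.wt_some a j h]
  rfl

/-- evaluation of the weights at `u` -/
def evu (u : Z1.Ht k) : (Z1.Ht k →L[ℝ] ℝ) →+ ℝ where
  toFun b := b u
  map_zero' := rfl
  map_add' _ _ := rfl

variable {Rd}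

/-- the letters: pure upper bounds -/
theorem pure_ub {t0 T0 : ℝ} (ht0 : 0 < t0) (hT0 : 1 ≤ T0) (hτ : ∀ a, t0 ≤ Rd.τ a ∧ Rd.τ a ≤ T0)
    {i : J} {u : Z1.Ht k} {Bu q κ μ r s : ℝ} (hBu : 0 ≤ Bu) (hq : 0 ≤ q) (hκ : 0 ≤ κ)
    (hμ : μ ≤ Rd.b i u + Bu) (hr : r ≤ s + Bu) (hs : 0 ≤ s) (ρ : Option J → ℝ)
    (h1 : ρ (some i) = μ) (h2 : ρ none = r) (a : M.ι) (ha : po Rd (some i) a) :
    κ + Rd.τ a * ρ (Rd.ray a) ≤ M.wt a u + (κ + T0 * Bu + s) := by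
  rcases ha with ha | ha
  · rw [ha, h1, wt_val Rd a i ha]
    have e1 := mul_le_mul_of_nonneg_left hμ (Rd.τ_pos a).le
    have e2 := mul_le_mul_of_nonneg_right (hτ a).2 hBu
    linarith
  · rw [ha, h2, Rd.wt_none a ha, Rd.τ_none a ha, one_mul]
    have e2 := mul_le_mul_of_nonneg_right hT0 hBu
    change κ + r ≤ 0 + _
    linarith

/-- **comparison of the words** -/
theorem ext_words {t0 T0 : ℝ} (ht0 : 0 < t0) (hT0 : 1 ≤ T0)
    (hτ : ∀ a, t0 ≤ Rd.τ a ∧ Rd.τ a ≤ T0) {i : J} {u : Z1.Ht k} {Bu x δ c1 l C1 κ : ℝ}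
    (hBu : 0 ≤ Bu) {ρ ρ' : Option J → ℝ} (hu1 : Rd.b i u ≤ ρ (some i) + δ * x)
    (hu2 : ρ (some i) + δ * x ≤ Rd.b i u + Bu)
    (hu3 : ∀ j, j ≠ i → Rd.b j u ≤ ρ (some j) - c1 * x) (h0 : 0 ≤ ρ none)
    (h1 : ρ none ≤ δ * x) (hn : ρ' none = ρ none) (hi : ρ' (some i) = ρ (some i)) (hl0 : 0 ≤ l)
    (hl : l ≤ δ * x) (hδ : 0 ≤ δ * x) (hx : 0 ≤ c1 * x) (hC1 : 0 ≤ C1) (hκ : 0 ≤ κ)
    (hbig : (D.R.m : ℝ) * (κ + T0 * (Bu + C1) + δ * x) + D.R.m * (T0 * (δ * x)) ≤ t0 * (c1 * x)) :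
    ∀ w w' : AW D.R M.ι, ¬ wall (po Rd (some i)) w.1 w.2 → wall (po Rd (some i)) w'.1 w'.2 →
      wsum M.wt w'.1 w'.2 = wsum M.wt w.1 w.2 →
      wsz (fun a => Real.exp κ * so Rd (some i) (ρ (some i) + l) (ρ none) a) w'.1 w'.2 ≤
        wsz (Rd.sz ρ) w.1 w.2 ∧
      wsz (Rd.sz (sh ρ' C1)) w'.1 w'.2 ≤ wsz (Rd.sz ρ) w.1 w.2 := by
  intro w w' hw hw' hww
  have hBC : 0 ≤ Bu + C1 := by linarith
  -- lower bound of the mixed word
  have hlow : wsum (fun a => M.wt a u) w.1 w.2 - ((w.1 : ℕ) + 1) * (T0 * (δ * x)) + t0 * (c1 * x) ≤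
      wsum (fun a => Rd.τ a * ρ (Rd.ray a)) w.1 w.2 := by
    refine wsum_mix (p := po Rd (some i)) (by positivity) (fun a => ?_) (fun a ha => ?_) _ _ hw
    · rcases hr : Rd.ray a with _ | j
      · rw [Rd.wt_none a hr]
        change 0 - _ ≤ _
        have := mul_nonneg (Rd.τ_pos a).le h0
        have : 0 ≤ T0 * (δ * x) := by positivity
        linarith
      · rw [wt_val Rd a j hr]
        by_cases hj : j = i
        · subst hj
          have e1 := mul_le_mul_of_nonneg_left hu1 (Rd.τ_pos a).le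
          have e2 := mul_le_mul_of_nonneg_right (hτ a).2 hδ
          linarith
        · have e1 := mul_le_mul_of_nonneg_left (hu3 j hj) (Rd.τ_pos a).le
          have e2 : 0 ≤ T0 * (δ * x) := by positivity
          have e3 := mul_nonneg (Rd.τ_pos a).le hx
          linarith
    · unfold po at ha
      rw [not_or] at ha
      rcases hr : Rd.ray a with _ | j
      · exact absurd hr ha.2
      · rw [wt_val Rd a j hr]
        have hj : j ≠ i := fun e => ha.1 (by rw [hr, e])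
        have e1 := mul_le_mul_of_nonneg_left (hu3 j hj) (Rd.τ_pos a).le
        have e3 := mul_le_mul_of_nonneg_right (hτ a).1 hx
        linarith
  have hs1 : wsz (Rd.sz ρ) w.1 w.2 =
      Real.exp (wsum (fun a => Rd.τ a * ρ (Rd.ray a)) w.1 w.2) := wsz_exp _ _ _
  have hval : wsum (fun a => M.wt a u) w'.1 w'.2 = wsum (fun a => M.wt a u) w.1 w.2 := by
    have e1 := wsum_map (evu u) M.wt w'.1 w'.2
    have e2 := wsum_map (evu u) M.wt w.1 w.2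
    rw [hww, ← e2] at e1
    exact e1
  have hm1 : ((w.1 : ℕ) : ℝ) + 1 ≤ D.R.m := by exact_mod_cast w.1.2
  have hm2 : ((w'.1 : ℕ) : ℝ) + 1 ≤ D.R.m := by exact_mod_cast w'.1.2
  have hfin : ∀ f : M.ι → ℝ, (∀ a, po Rd (some i) a →
      f a ≤ M.wt a u + (κ + T0 * (Bu + C1) + δ * x)) →
      Real.exp (wsum f w'.1 w'.2) ≤ wsz (Rd.sz ρ) w.1 w.2 := by
    intro f hf
    rw [hs1]
    refine Real.exp_le_exp.2 ?_
    have e1 := wsum_le (p := po Rd (some i)) (g := fun a => M.wt a u) hf _ _ hw'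
    rw [hval] at e1
    have e2 : ((w'.1 : ℕ) + 1 : ℝ) * (κ + T0 * (Bu + C1) + δ * x) ≤
        D.R.m * (κ + T0 * (Bu + C1) + δ * x) :=
      mul_le_mul_of_nonneg_right hm2 (by positivity)
    have e3 : ((w.1 : ℕ) + 1 : ℝ) * (T0 * (δ * x)) ≤ D.R.m * (T0 * (δ * x)) :=
      mul_le_mul_of_nonneg_right hm1 (by positivity)
    linarith
  constructor
  · have e1 : (fun a => Real.exp κ * so Rd (some i) (ρ (some i) + l) (ρ none) a) =
        fun a => Real.exp (κ + Rd.τ a * exto (some i) (ρ (some i) + l) (ρ none) (Rd.ray a)) := by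
      funext a
      rw [Real.exp_add]
      rfl
    rw [e1, wsz_exp]
    refine hfin _ fun a ha => ?_
    refine pure_ub ht0 hT0 hτ (i := i) (u := u) hBC hC1 hκ (μ := ρ (some i) + l) (r := ρ none)
      (by linarith) (by linarith) hδ _ (by simp [exto]) (by simp [exto]) a ha
  · have e1 : Rd.sz (sh ρ' C1) = fun a => Real.exp (0 + Rd.τ a * (sh ρ' C1) (Rd.ray a)) := by
      funext a
      rw [zero_add]
      rfl
    rw [e1, wsz_exp]
    refine hfin _ fun a ha => ?_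
    have := pure_ub ht0 hT0 hτ (i := i) (u := u) (Bu := Bu + C1) (q := C1) (κ := 0)
      (μ := ρ (some i) + C1) (r := ρ none + C1) (s := δ * x) hBC hC1 le_rfl
      (by linarith) (by linarith) hδ (sh ρ' C1) (by show ρ' (some i) + C1 = _; rw [hi])
      (by show ρ' none + C1 = _; rw [hn]) a ha
    linarith

theorem ext_pure {T0 : ℝ} (hT0 : 1 ≤ T0)
    (hτ : ∀ a, Rd.τ a ≤ T0) {i : J} {C1 : ℝ} {ρ ρ' : Option J → ℝ} (hn : ρ' none = ρ none)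
    (hi : ρ' (some i) = ρ (some i)) (hC1 : 0 ≤ C1) (w : AW D.R M.ι)
    (hw : wall (po Rd (some i)) w.1 w.2) :
    wsz (Rd.sz (sh ρ' C1)) w.1 w.2 ≤ Real.exp (D.R.m * (T0 * C1)) * wsz (Rd.sz ρ) w.1 w.2 := by
  have hm1 : ((w.1 : ℕ) : ℝ) + 1 ≤ D.R.m := by exact_mod_cast w.1.2
  have h1 : wsz (Rd.sz ρ) w.1 w.2 =
      Real.exp (wsum (fun a => Rd.τ a * ρ (Rd.ray a)) w.1 w.2) := wsz_exp _ _ _
  have h2 : wsz (Rd.sz (sh ρ' C1)) w.1 w.2 =
      Real.exp (wsum (fun a => Rd.τ a * (sh ρ' C1) (Rd.ray a)) w.1 w.2) := wsz_exp _ _ _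
  rw [h1, h2, ← Real.exp_add, Real.exp_le_exp]
  have h3 := wsum_le (p := po Rd (some i)) (f := fun a => Rd.τ a * (sh ρ' C1) (Rd.ray a))
    (g := fun a => Rd.τ a * ρ (Rd.ray a)) (c := T0 * C1) (fun a ha => by
      have e1 := mul_le_mul_of_nonneg_right (hτ a) hC1
      have e2 : (sh ρ' C1) (Rd.ray a) = ρ (Rd.ray a) + C1 := by
        rcases ha with ha | ha
        · rw [ha]; show ρ' (some i) + C1 = _; rw [hi]
        · rw [ha]; show ρ' none + C1 = _; rw [hn]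
      rw [e2]
      linarith) _ _ hw
  have h4 : ((w.1 : ℕ) + 1 : ℝ) * (T0 * C1) ≤ D.R.m * (T0 * C1) :=
    mul_le_mul_of_nonneg_right hm1 (by positivity)
  linarith

/-- the multiple of the direction -/
theorem exists_mul_dir {b y : ℝ} (hb : 0 < b) (hy : 0 ≤ y) : ∃ m : ℕ, m * b ≤ y ∧ y ≤ m * b + b := by
  refine ⟨⌊y / b⌋₊, ?_, ?_⟩
  · have := Nat.floor_le (div_nonneg hy hb.le)
    rwa [le_div_iff₀ hb] at this
  · have := (Nat.lt_floor_add_one (y / b)).le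
    rw [div_le_iff₀ hb] at this
    linarith

variable {B : M.NatBox} (hB : B.Bx = NBx D M.X)

include hB in
/-- the separated families -/
theorem ext_pkn {i : J} {ρ ρ' : Option J → ℝ} {l C1 C3 κ : ℝ}
    (hmul : ∀ ρ : Option J → ℝ, ∀ x ∈ Rd.Nb B ρ, ∀ y ∈ Rd.Nb B ρ, x * y ∈ Rd.Nb B fun j => ρ j + C1)
    (hmulC : ∀ r : M.ι → ℝ, ∀ x ∈ NBx D M.X r, ∀ y ∈ NBx D M.X r,
      x * y ∈ NBx D M.X fun i => Real.exp κ * r i)
    (hn : ρ' none = ρ none) (hi : ρ' (some i) = ρ (some i))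
    (hkc : ∀ v : D.R.V, v ∈ nb (LB M.X (Rd.sz (sh ρ' C1))) →
      v ∈ nb (LB M.X (on (po Rd (some i))
        (fun a => Real.exp κ * so Rd (some i) (ρ (some i) + l) (ρ none) a))) →
      v ∈ nb (LB M.X (Rd.sz (sh ρ C3)))) :
    pkn (NE Rd B (sh ρ C3)) (U0 Rd (some i) (ρ (some i) + l) (ρ none)) ≤
      pkn (NE Rd B ρ') (U0 Rd (some i) (ρ' (some i) + l) (ρ' none)) := by
  obtain ⟨X, hX1, hX2, hX3⟩ := exists_pkn
    (bdd_U0 (Rd := Rd) hB (some i) (ρ (some i) + l) (ρ none) (sh ρ C3))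
  rw [← hX3, hn, hi]
  refine le_pkn (bdd_U0 hB _ _ _ _) hX1 ?_
  intro x hx y hy hxy n hnn n' hnn' he
  -- the quotient
  have e1 : x * y⁻¹ = n⁻¹ * n' := by
    have : x = n⁻¹ * (n' * y) := by rw [← he]; group
    rw [this]; group
  have h1 : x * y⁻¹ ∈ NE Rd B (sh ρ' C1) := by
    rw [e1]
    exact hmul ρ' _ (inv_mem_NE hnn) _ hnn'
  have h2 : ((x * y⁻¹ : M.NR) : D.S) ∈ NBx D M.X fun a => Real.exp κ *
      on (po Rd (some i)) (so Rd (some i) (ρ (some i) + l) (ρ none)) a := by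
    obtain ⟨v, hv, hvx⟩ := hX1 x hx
    obtain ⟨v', hv', hvx'⟩ := inv_mem_US (hX1 y hy)
    rw [Subgroup.coe_mul]
    refine hmulC _ _ ⟨v, ?_, hvx⟩ _ ⟨v', ?_, hvx'⟩
    · rw [Gb_eq_LB]; exact hv
    · rw [Gb_eq_LB]; exact hv'
  obtain ⟨v, hv, hvx⟩ := (mem_NE hB).1 h1
  obtain ⟨v', hv', hvx'⟩ := h2
  have hvv : v = v' := D.ex_injective (hvx.trans hvx'.symm)
  subst hvv
  have h3 : x * y⁻¹ ∈ NE Rd B (sh ρ C3) := by
    rw [mem_NE hB]
    refine ⟨v, hkc v hv ?_, hvx⟩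
    rw [Gb_eq_LB, on_mul] at hv'
    exact hv'
  refine hX2 x hx y hy hxy 1 (one_mem_NE B _) (x * y⁻¹) h3 ?_
  group

/-- the numerical condition -/
theorem ext_big {m T0 t0 c1 κ Bu Bm C1 δ x δ₂ : ℝ} (hm : 1 ≤ m) (hT0 : 1 ≤ T0) (ht0 : 0 < t0)
    (hc1 : 0 < c1) (hB : Bu ≤ Bm) (hx : 0 ≤ x) (hδ : δ * (4 * (m * T0)) ≤ t0 * c1)
    (hxx : m * (κ + T0 * (Bm + C1)) * 2 ≤ x * (t0 * c1)) (hδ0 : 0 ≤ δ) :
    m * (κ + T0 * (Bu + C1) + δ * x) + m * (T0 * (δ * x)) ≤ t0 * (c1 * x) := by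
  have e1 := mul_le_mul_of_nonneg_right hδ hx
  have e2 : 0 ≤ δ * x := mul_nonneg hδ0 hx
  have e3 : m * (δ * x) ≤ m * (T0 * (δ * x)) :=
    mul_le_mul_of_nonneg_left (le_mul_of_one_le_left e2 hT0) (by linarith)
  have e4 : m * (T0 * (Bu + C1)) ≤ m * (T0 * (Bm + C1)) :=
    mul_le_mul_of_nonneg_left (mul_le_mul_of_nonneg_left (by linarith) (by linarith)) (by linarith)
  nlinarith

/-- the conclusion of `kc` -/
def KC (M : RModel D.S Γ D.R.V k) (p : M.ι → Prop) (C : ℝ) : Prop :=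
  ∀ K : ℝ, 1 ≤ K → ∀ σ σ' τ' : M.ι → ℝ, (∀ i, 0 ≤ σ i) →
    (∀ i, 0 ≤ σ' i) → (∀ i, 0 ≤ τ' i) →
    (∀ w w' : AW D.R M.ι, ¬ wall p w.1 w.2 → wall p w'.1 w'.2 →
      wsum M.wt w'.1 w'.2 = wsum M.wt w.1 w.2 →
      wsz τ' w'.1 w'.2 ≤ wsz σ w.1 w.2 ∧ wsz σ' w'.1 w'.2 ≤ wsz σ w.1 w.2) →
    (∀ w : AW D.R M.ι, wall p w.1 w.2 → wsz σ' w.1 w.2 ≤ K * wsz σ w.1 w.2) →
    ∀ v : D.R.V, v ∈ nb (LB M.X σ') → v ∈ nb (LB M.X (on p τ')) → v ∈ (C * K) • nb (LB M.X σ)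

theorem exists_KC {hη : Function.Surjective η} {F : Set Γ} {t : D.S} (hM : Conc D hη F t M)
    (p : M.ι → Prop) : ∃ C : ℝ, 1 ≤ C ∧ KC M p C := by
  obtain ⟨P, hP, hP'⟩ := hM.exists_proj
  obtain ⟨C, h1, h2⟩ := kc D.R M.X M.wt P
    (fun w => hP _ _ (bet_mem hM w.1 w.2)) (fun w b hb => hP' _ _ hb _ (bet_mem hM w.1 w.2)) p
  exact ⟨C, h1, h2⟩

/-- from the comparison of the words to the boxes -/
theorem ext_box {t0 T0 : ℝ} (ht0 : 0 < t0) (hT0 : 1 ≤ T0)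
    (hτ : ∀ a, t0 ≤ Rd.τ a ∧ Rd.τ a ≤ T0) {i : J} {C1 C3 κ CK Ck : ℝ} (hCk1 : 1 ≤ Ck)
    (hCk : KC M (po Rd (some i)) Ck) (hCK : Ck ≤ CK) (hCK1 : 1 ≤ CK)
    (hC3 : (Real.log CK + D.R.m * (T0 * C1)) / t0 ≤ C3) (hC30 : 0 ≤ C3) (hC1 : 0 ≤ C1)
    {ρ ρ' : Option J → ℝ} {l : ℝ} (hn : ρ' none = ρ none) (hi : ρ' (some i) = ρ (some i))
    (hw : ∀ w w' : AW D.R M.ι, ¬ wall (po Rd (some i)) w.1 w.2 → wall (po Rd (some i)) w'.1 w'.2 →
      wsum M.wt w'.1 w'.2 = wsum M.wt w.1 w.2 →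
      wsz (fun a => Real.exp κ * so Rd (some i) (ρ (some i) + l) (ρ none) a) w'.1 w'.2 ≤
        wsz (Rd.sz ρ) w.1 w.2 ∧
      wsz (Rd.sz (sh ρ' C1)) w'.1 w'.2 ≤ wsz (Rd.sz ρ) w.1 w.2)
    (v : D.R.V) (hv : v ∈ nb (LB M.X (Rd.sz (sh ρ' C1))))
    (hv' : v ∈ nb (LB M.X (on (po Rd (some i))
        (fun a => Real.exp κ * so Rd (some i) (ρ (some i) + l) (ρ none) a)))) :
    v ∈ nb (LB M.X (Rd.sz (sh ρ C3))) := by
  have hσ0 : ∀ a, 0 ≤ Rd.sz ρ a := fun a => (Rd.sz_pos ρ a).le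
  have he : 1 ≤ Real.exp (D.R.m * (T0 * C1)) := Real.one_le_exp (by positivity)
  have h1 := hCk (Real.exp (D.R.m * (T0 * C1))) he
    (Rd.sz ρ) (Rd.sz (sh ρ' C1))
    (fun a => Real.exp κ * so Rd (some i) (ρ (some i) + l) (ρ none) a) hσ0
    (fun a => (Rd.sz_pos _ a).le)
    (fun a => mul_nonneg (Real.exp_pos _).le (so_pos _ _ _ a).le) hw
    (fun w hw => ext_pure hT0 (fun a => (hτ a).2) hn hi hC1 w hw) v hv hv'
  have h2 : 1 ≤ CK * Real.exp (D.R.m * (T0 * C1)) := one_le_mul_of_one_le_of_one_le hCK1 he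
  have h0 : 0 ≤ Ck * Real.exp (D.R.m * (T0 * C1)) :=
    mul_nonneg (by linarith) (Real.exp_pos _).le
  have h3 := (csy_nb (csy_LB M.X (Rd.sz ρ))).mem_mono h0
    (mul_le_mul_of_nonneg_right hCK (Real.exp_pos (D.R.m * (T0 * C1))).le) h1
  have h4 := smul_nb_sub (csy_LB M.X (Rd.sz ρ)) h2 h3
  rw [smul_LB] at h4
  refine nb_mono (LB_mono _ (fun a => mul_nonneg (by linarith) (hσ0 a)) fun a => ?_) h4
  have h5 : CK * Real.exp (D.R.m * (T0 * C1)) ≤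
      Real.exp (Real.log CK + D.R.m * (T0 * C1)) := by
    rw [Real.exp_add, Real.exp_log (by linarith)]
  exact Rd.mul_sz_le ht0 (fun a => (hτ a).1) h5 hC3 hC30 ρ a

/-- the words in the windows -/
theorem ext_win {t0 T0 : ℝ} (ht0 : 0 < t0) (hT0 : 1 ≤ T0)
    (hτ : ∀ a, t0 ≤ Rd.τ a ∧ Rd.τ a ≤ T0) {i : J} {u : Z1.Ht k} {Bm x δ c1 l C1 κ : ℝ}
    (hb : 0 < Rd.b i u) (hBu : Rd.b i u ≤ Bm) (hc1 : 0 < c1) (hδ : 0 < δ)
    (hδ4 : δ * (4 * (D.R.m * T0)) ≤ t0 * c1)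
    (hxx : D.R.m * (κ + T0 * (Bm + C1)) * 2 ≤ x * (t0 * c1)) (hx : 0 ≤ x) (hC1 : 0 ≤ C1)
    (hκ : 0 ≤ κ) {ρ ρ' : Option J → ℝ} (hy : 0 ≤ ρ (some i) + δ * x)
    (hdir : ∀ j, j ≠ i → ∀ m : ℕ, m * Rd.b i u ≤ ρ (some i) + δ * x →
      m * Rd.b j u ≤ ρ (some j) - c1 * x)
    (hn0 : 0 ≤ ρ none)
    (hn1 : ρ none ≤ δ * x) (hn : ρ' none = ρ none) (hi : ρ' (some i) = ρ (some i)) (hl0 : 0 ≤ l)
    (hl : l ≤ δ * x) :
    ∀ w w' : AW D.R M.ι, ¬ wall (po Rd (some i)) w.1 w.2 → wall (po Rd (some i)) w'.1 w'.2 →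
      wsum M.wt w'.1 w'.2 = wsum M.wt w.1 w.2 →
      wsz (fun a => Real.exp κ * so Rd (some i) (ρ (some i) + l) (ρ none) a) w'.1 w'.2 ≤
        wsz (Rd.sz ρ) w.1 w.2 ∧
      wsz (Rd.sz (sh ρ' C1)) w'.1 w'.2 ≤ wsz (Rd.sz ρ) w.1 w.2 := by
  have hm1 : (1 : ℝ) ≤ D.R.m := by exact_mod_cast D.R.hm0
  obtain ⟨m, hm2, hm3⟩ := exists_mul_dir hb hy
  have hval : ∀ j, Rd.b j ((m : ℝ) • u) = m * Rd.b j u := by
    intro j
    rw [map_smul]
    rfl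
  have hbig := ext_big (κ := κ) (C1 := C1) (δ₂ := 0) hm1 hT0 ht0 hc1 hBu hx hδ4 hxx hδ.le
  have hδx : 0 ≤ δ * x := mul_nonneg hδ.le hx
  have hcx : 0 ≤ c1 * x := mul_nonneg hc1.le hx
  have a1 : Rd.b i ((m : ℝ) • u) ≤ ρ (some i) + δ * x := by rw [hval]; exact hm2
  have a2 : ρ (some i) + δ * x ≤ Rd.b i ((m : ℝ) • u) + Rd.b i u := by rw [hval]; exact hm3
  have a3 : ∀ j, j ≠ i → Rd.b j ((m : ℝ) • u) ≤ ρ (some j) - c1 * x := fun j hj => by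
    rw [hval]; exact hdir j hj m hm2
  exact ext_words ht0 hT0 hτ hb.le a1 a2 a3 hn0 hn1 hn hi hl0 hl hδx hcx hC1 hκ hbig

include hB in
/-- large windows -/
theorem ext_large {i : J} {ρ ρ' : Option J → ℝ} {l C3 Cb : ℝ} (hC30 : 0 ≤ C3)
    (hbox : ∀ (ρ ρ' : Option J → ℝ) (x : ℝ), 0 ≤ x →
      (∀ j, ρ' j ≤ ρ j + x) → ∀ U : Set M.NR, BddAbove (PK (NE Rd B ρ) U) →
      BddAbove (PK (NE Rd B ρ') U) →
      (pkn (NE Rd B ρ) U : ℝ) ≤ Real.exp (Cb * (1 + x)) * pkn (NE Rd B ρ') U)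
    (hkk : pkn (NE Rd B (sh ρ C3)) (U0 Rd (some i) (ρ (some i) + l) (ρ none)) ≤
      pkn (NE Rd B ρ') (U0 Rd (some i) (ρ' (some i) + l) (ρ' none))) :
    Hp Rd B (some i) ρ l ≤ Hp Rd B (some i) ρ' l + Cb * (1 + C3) := by
  have h5 := hbox ρ (sh ρ C3) C3 hC30 (fun j => le_rfl)
    (U0 Rd (some i) (ρ (some i) + l) (ρ none)) (bdd_U0 hB _ _ _ _) (bdd_U0 hB _ _ _ _)
  refine Real.exp_le_exp.1 ?_
  rw [exp_Hp hB, Real.exp_add, exp_Hp hB]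
  refine h5.trans ?_
  rw [mul_comm]
  refine mul_le_mul_of_nonneg_right ?_ (Real.exp_pos _).le
  exact_mod_cast hkk

/-- small windows -/
theorem ext_small {p : J → ℝ} {δ x x1 : ℝ} {ρ ρ' : Option J → ℝ} (hδ : 0 ≤ δ) (hx1 : 0 ≤ x1)
    (hxx : x ≤ x1) (hn : ρ' none = ρ none) (hρ : ∀ j, |ρ (some j) - x * p j| ≤ δ * x)
    (hρ' : ∀ j, |ρ' (some j) - x * p j| ≤ δ * x) (j : Option J) :
    |ρ j - ρ' j| ≤ 2 * (δ * x1) := by
  rcases j with _ | j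
  · rw [hn, sub_self, abs_zero]; positivity
  · have e1 := abs_le.1 (hρ j)
    have e2 := abs_le.1 (hρ' j)
    have e4 := mul_le_mul_of_nonneg_left hxx hδ
    rw [abs_le]
    constructor <;> linarith

include hB in
/-- **field `H_ext`** -/
theorem Hp_ext [Fintype J] (h : NatHyp M) {hη : Function.Surjective η} {F : Set Γ} {t : D.S}
    (hM : Conc D hη F t M) : ∃ δ₂ : ℝ, 0 < δ₂ ∧ ∀ δ : ℝ, 0 < δ → δ ≤ δ₂ →
      Ev (FHe Rd (Hp Rd B) δ) := by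
  obtain ⟨t0, T0, ht0, hT0, hτ⟩ := Rd.exists_τ
  obtain ⟨vv, c1, -, hc1, -, -, -, hpos, -, -, hdir⟩ := exists_t Rd
  obtain ⟨C1, hC1, hmul⟩ := Rd.Nb_mul B
  obtain ⟨CM, hCM, hmulC⟩ := mulC (D := D) M.X
  obtain ⟨Cb, hCb, hbox⟩ := pkn_box Rd B
  obtain ⟨Cs, hCs, hsh⟩ := Hp_sh (Rd := Rd) hB h
  have hk := fun i : J => exists_KC hM (po Rd (some i))
  choose Ck hCk1 hCk using hk
  have hm1 : (1 : ℝ) ≤ D.R.m := by exact_mod_cast D.R.hm0
  have hκ : 0 ≤ Real.log CM := Real.log_nonneg hCM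
  have heκ : Real.exp (Real.log CM) = CM := Real.exp_log (by linarith)
  obtain ⟨Bm, hBm0, hBm⟩ : ∃ Bm : ℝ, 0 ≤ Bm ∧ ∀ i, gb Rd i (M.θ (M.τ (vv i))) ≤ Bm :=
    ⟨∑ i, gb Rd i (M.θ (M.τ (vv i))), sum_nonneg fun i _ => (hpos i).le, fun i =>
      single_le_sum (f := fun i => gb Rd i (M.θ (M.τ (vv i)))) (fun i _ => (hpos i).le) (mem_univ i)⟩
  obtain ⟨CK, hCK1, hCK⟩ : ∃ CK : ℝ, 1 ≤ CK ∧ ∀ i, Ck i ≤ CK := by
    have h0 : 0 ≤ ∑ i, Ck i := sum_nonneg fun i _ => by linarith [hCk1 i]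
    refine ⟨1 + ∑ i, Ck i, by linarith, fun i => ?_⟩
    have := single_le_sum (f := Ck) (fun i _ => by linarith [hCk1 i]) (mem_univ i)
    linarith
  obtain ⟨C3, hC30, hC3⟩ : ∃ C3 : ℝ, 0 ≤ C3 ∧ (Real.log CK + D.R.m * (T0 * C1)) / t0 ≤ C3 :=
    ⟨_, div_nonneg (add_nonneg (Real.log_nonneg hCK1) (by positivity)) ht0.le, le_rfl⟩
  obtain ⟨x1, hx10, hx1⟩ : ∃ x1 : ℝ, 0 ≤ x1 ∧
      D.R.m * (Real.log CM + T0 * (Bm + C1)) * 2 ≤ x1 * (t0 * c1) :=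
    ⟨D.R.m * (Real.log CM + T0 * (Bm + C1)) * 2 / (t0 * c1), by positivity,
      le_of_eq (div_mul_cancel₀ _ (by positivity)).symm⟩
  refine ⟨min c1 (t0 * c1 / (4 * (D.R.m * T0))), lt_min hc1 (by positivity), fun δ hδ hδ2 => ?_⟩
  have hδc : δ ≤ c1 := hδ2.trans (min_le_left _ _)
  have hδ4 : δ * (4 * (D.R.m * T0)) ≤ t0 * c1 := by
    rw [← le_div_iff₀ (by positivity)]; exact hδ2.trans (min_le_right _ _)
  refine ⟨Cb * (1 + C3) + Cs * (1 + 2 * (δ * x1)), by positivity, fun C hC => ?_⟩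
  intro i x ρ ρ' l hρ hρ' hn0 hn1 hn hi hl0 hl
  have hδx : 0 ≤ δ * x := (abs_nonneg _).trans (hρ i)
  have hx : 0 ≤ x := by
    by_contra hcon
    exact absurd hδx (not_le.2 (mul_neg_of_pos_of_neg hδ (not_le.1 hcon)))
  have hcb : 0 ≤ Cb * (1 + C3) := by positivity
  have hcs : 0 ≤ Cs * (1 + 2 * (δ * x1)) := by positivity
  rcases le_total x x1 with hxx | hxx
  · have h2 := hsh Cs le_rfl (some i) ρ' ρ l (2 * (δ * x1)) (by positivity)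
      (ext_small hδ.le hx10 hxx hn hρ hρ')
    linarith
  · have hen := RModel.F6.en_nonneg (Rd.b i)
    have hy : 0 ≤ ρ (some i) + δ * x := by
      have e1 := (abs_le.1 (hρ i)).1
      have e2 := mul_nonneg hx hen
      linarith
    have hx2 : D.R.m * (Real.log CM + T0 * (Bm + C1)) * 2 ≤ x * (t0 * c1) :=
      hx1.trans (mul_le_mul_of_nonneg_right hxx (by positivity))
    have hw := ext_win (Rd := Rd) ht0 hT0 hτ (hpos i) (hBm i) hc1 hδ hδ4 hx2 hx hC1 hκ hy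
      (fun j hj m hm => hdir δ c1 hδ hδc hc1 le_rfl i j hj x ρ hx hρ m hm) hn0 hn1 hn hi hl0 hl
    have hkk := ext_pkn (Rd := Rd) (i := i) (ρ := ρ) (ρ' := ρ') (l := l) (C1 := C1) (C3 := C3)
      (κ := Real.log CM) hB (fun ρ => hmul C1 le_rfl ρ)
      (by rw [heκ]; exact hmulC CM le_rfl) hn hi
      (ext_box ht0 hT0 hτ (hCk1 i) (hCk i) (hCK i) hCK1 hC3 hC30 hC1 hn hi hw)
    have h7 := ext_large hB hC30 hbox hkk
    linarith

end hext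

end Vale.Agent.P188.H8
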