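import Vale.Agent.P188.H8.Vol

/-!
# P188, route B (ES), block VOL, part 2: laws of products, mixtures of box laws
-/

set_option linter.all false

open MeasureTheory Set
open scoped ENNReal

namespace Vale.Agent.P188.H8

section Dom

variable {S : Type*} [Group S] [MeasurableSpace S] (hr : ∀ g : S, Measurable fun x : S => x * g)

/-- `Dom m m' K`: the right translates of `m` by elements of `K` are dominated by `m'`. -/
def Dom (m m' : Measure S) (K : Set S) : Prop :=
  ∀ g ∈ K, ∀ F : Set S, MeasurableSet F → m {y | y * g ∈ F} ≤ m' F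

theorem Dom.mono {m m' m'' : Measure S} {K K' : Set S} (h : Dom m m' K) (hK : K' ⊆ K)
    (hm : m' ≤ m'') : Dom m m'' K' :=
  fun g hg F hF => (h g (hK hg) F hF).trans (hm F)

/-- boxes: `A * K ⊆ A'` -/
theorem dom_box {μ : Measure S} (hμ : ∀ g : S, MeasurePreserving (fun x => x * g) μ μ)
    {A A' K : Set S} (hA : MeasurableSet A) (hA' : MeasurableSet A')
    (h : ∀ a ∈ A, ∀ g ∈ K, a * g ∈ A') : Dom (μ.restrict A) (μ.restrict A') K := by
  intro g hg F hF
  have hm : MeasurableSet {y | y * g ∈ F} := (hμ g).measurable hF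
  rw [Measure.restrict_apply hm, Measure.restrict_apply hF]
  have h1 : {y | y * g ∈ F} ∩ A ⊆ (fun x => x * g) ⁻¹' (F ∩ A') := by
    rintro y ⟨hy, hyA⟩
    exact ⟨hy, h y hyA g hg⟩
  refine (measure_mono h1).trans ?_
  rw [(hμ g).measure_preimage (hF.inter hA').nullMeasurableSet]

/-- the law of `y * j x` -/
noncomputable def law {U : Type*} [MeasurableSpace U] (j : U → S) (m : Measure S)
    (n : Measure U) : Measure S :=
  (m.prod n).map fun p => p.1 * j p.2

theorem law_apply {U : Type*} [MeasurableSpace U] {j : U → S} {m : Measure S} [SFinite m]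
    {n : Measure U} [SFinite n] (hj : Measurable fun p : S × U => p.1 * j p.2) {F : Set S}
    (hF : MeasurableSet F) : law j m n F = ∫⁻ x, m {y | y * j x ∈ F} ∂n := by
  unfold law
  rw [Measure.map_apply hj hF, Measure.prod_apply_symm (hj hF)]
  rfl

instance {U : Type*} [MeasurableSpace U] (j : U → S) (m : Measure S) [SFinite m]
    (n : Measure U) [SFinite n] : SFinite (law j m n) := by
  unfold law
  infer_instance

include hr

/-- **KEY POINT 1 of 8195, one step of the chain law**: if the translates of `m` by `K₀` are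
dominated by `m'`, and each `g ∈ K₁` is `n' * x'` with `j x * n' * (j x)⁻¹ ∈ K₀` for `x ∈ B` and
`j x * x' = j (r x)`, `r x ∈ B'`, `r` measure preserving, then the translates of the law of `y * j x`
(`y ∼ m`, `x ∼ nU | B`) by `K₁` are dominated by the law with `m'`, `B'`. -/
theorem dom_step {U : Type*} [MeasurableSpace U] {j : U → S} {nU : Measure U} [SFinite nU]
    (hj : Measurable fun p : S × U => p.1 * j p.2) {m m' : Measure S} [SFinite m] [SFinite m']
    {K₀ K₁ : Set S} (h : Dom m m' K₀) {B B' : Set U} (hB : MeasurableSet B)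
    (hB' : MeasurableSet B')
    (hK : ∀ g ∈ K₁, ∃ (n' x' : S) (r : U → U), g = n' * x' ∧
      MeasurePreserving r nU nU ∧
      ∀ x ∈ B, j x * n' * (j x)⁻¹ ∈ K₀ ∧ j (r x) = j x * x' ∧ r x ∈ B') :
    Dom (law j m (nU.restrict B)) (law j m' (nU.restrict B')) K₁ := by
  intro g hg F hF
  obtain ⟨n', x', r, rfl, hmp, hx⟩ := hK g hg
  have hφ : Measurable fun x => m' {y | y * j x ∈ F} := by
    have := measurable_measure_prodMk_right (μ := m') (hj hF)
    exact this
  have hmeas : MeasurableSet {y | y * (n' * x') ∈ F} := hr _ hF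
  rw [law_apply hj hmeas, law_apply hj hF]
  calc ∫⁻ x in B, m {y | y * j x ∈ {y | y * (n' * x') ∈ F}} ∂nU
      ≤ ∫⁻ x in B, m' {y | y * j (r x) ∈ F} ∂nU := by
        refine setLIntegral_mono' hB fun x hxB => ?_
        obtain ⟨h1, h2, h3⟩ := hx x hxB
        have hF' : MeasurableSet {y | y * j (r x) ∈ F} := hr _ hF
        refine le_trans (le_of_eq ?_) (h _ h1 _ hF')
        congr 1
        ext y
        simp only [mem_setOf_eq]
        rw [h2]
        have : y * j x * (n' * x') = y * (j x * n' * (j x)⁻¹) * (j x * x') := by group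
        rw [this]
    _ = ∫⁻ x, B.indicator (fun x => m' {y | y * j (r x) ∈ F}) x ∂nU := by
        rw [lintegral_indicator hB]
    _ ≤ ∫⁻ x, (B'.indicator fun x => m' {y | y * j x ∈ F}) (r x) ∂nU := by
        refine lintegral_mono fun x => ?_
        by_cases hxB : x ∈ B
        · rw [indicator_of_mem hxB, indicator_of_mem (hx x hxB).2.2]
        · rw [indicator_of_notMem hxB]
          exact zero_le'
    _ = ∫⁻ x, (B'.indicator fun x => m' {y | y * j x ∈ F}) x ∂nU :=
        hmp.lintegral_comp (hφ.indicator hB')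
    _ = _ := by rw [lintegral_indicator hB']

/-- **Typical points**: if the translates of `m` by the elements of the symmetric set `K` are
dominated by `m'`, and a bad set is `ε`-small in every noise box `y * K`, then it is `ε`-small for
`m`. -/
theorem dom_typ {U : Type*} [MeasurableSpace U] {j : U → S} {κ : Measure U} [SFinite κ]
    (hj : Measurable fun p : S × U => p.1 * j p.2) {m m' : Measure S} [SFinite m] [SFinite m']
    {K : Set S} (h : Dom m m' K) (hK : ∀ᵐ x ∂κ, (j x)⁻¹ ∈ K) (h0 : κ univ ≠ 0) (h1 : κ univ ≠ ⊤)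
    {Bad : Set S} (hBad : MeasurableSet Bad) {ε : ℝ≥0∞}
    (hε : ∀ y, κ {x | y * j x ∈ Bad} ≤ ε * κ univ) : m Bad ≤ ε * m' univ := by
  have h2 : ∀ᵐ x ∂κ, m Bad ≤ m' {y | y * j x ∈ Bad} := by
    filter_upwards [hK] with x hx
    have h3 := h _ hx {y | y * j x ∈ Bad} (hr _ hBad)
    refine le_trans (le_of_eq ?_) h3
    congr 1
    ext y
    simp
  have h3 : m Bad * κ univ ≤ ε * κ univ * m' univ := by
    calc m Bad * κ univ = ∫⁻ _, m Bad ∂κ := by rw [lintegral_const]
      _ ≤ ∫⁻ x, m' {y | y * j x ∈ Bad} ∂κ := lintegral_mono_ae h2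
      _ = (m'.prod κ) ((fun p : S × U => p.1 * j p.2) ⁻¹' Bad) := by
          rw [Measure.prod_apply_symm (hj hBad)]
          rfl
      _ = ∫⁻ y, κ {x | y * j x ∈ Bad} ∂m' := by
          rw [Measure.prod_apply (hj hBad)]
          rfl
      _ ≤ ∫⁻ _, ε * κ univ ∂m' := lintegral_mono hε
      _ = ε * κ univ * m' univ := by rw [lintegral_const]
  have h4 : m Bad * κ univ ≤ (ε * m' univ) * κ univ := by
    refine h3.trans (le_of_eq ?_)
    ring
  exact (ENNReal.mul_le_mul_iff_left h0 h1).1 h4

theorem law_univ {U : Type*} [MeasurableSpace U] {j : U → S} {m : Measure S} [SFinite m]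
    {n : Measure U} [SFinite n] (hj : Measurable fun p : S × U => p.1 * j p.2) :
    law j m n univ = m univ * n univ := by
  rw [law_apply hj MeasurableSet.univ]
  simp

end Dom

end Vale.Agent.P188.H8
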