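import Vale.Agent.P188.H8.QRel

/-!
# P188, route B (ES), block VOL, part 4: mixed brackets

`G` convex symmetric set of generators, `Go ⊆ G`; `mnb G Go` = sums of iterated brackets with at
least one factor in `Go` (an ideal box of `nb G`). If `G ⊆ Gi + Go` then every element of
`exp (nb G)` is (mixed part) * (pure part).
-/

open Finset Filter Topology Pointwise

universe u v

namespace Vale.Agent.P188.H8

open Vale.Agent.P188.H796
open Vale.Agent.P188.H615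

section mix

variable {N : Type u} [Group N] {d n : ℕ} {D : MB N d n} {A : Type v} [NormedRing A]
  [NormedAlgebra ℝ A] [FiniteDimensional ℝ A] {R : RD D A}

/-- iterated brackets of elements of `G` with at least one factor in `Go` -/
def mx (G Go : Set R.V) : ℕ → Set R.V
  | 0 => Go
  | j + 1 => convexHull ℝ {z | (∃ x ∈ G, ∃ y ∈ mx G Go j, ⁅x, y⁆ = z) ∨
      ∃ x ∈ Go, ∃ y ∈ nbk G j, ⁅x, y⁆ = z}

theorem lie_mem_mx {G Go : Set R.V} {j : ℕ} {x y : R.V} (hx : x ∈ G) (hy : y ∈ mx G Go j) :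
    ⁅x, y⁆ ∈ mx G Go (j + 1) := subset_convexHull ℝ _ (Or.inl ⟨x, hx, y, hy, rfl⟩)

theorem lie_mem_mx' {G Go : Set R.V} {j : ℕ} {x y : R.V} (hx : x ∈ Go) (hy : y ∈ nbk G j) :
    ⁅x, y⁆ ∈ mx G Go (j + 1) := subset_convexHull ℝ _ (Or.inr ⟨x, hx, y, hy, rfl⟩)

theorem csy_mx {G Go : Set R.V} (h : CSy G) (ho : CSy Go) (j : ℕ) : CSy (mx G Go j) := by
  induction j with
  | zero => exact ho
  | succ j ih =>
    refine ⟨convex_convexHull ℝ _, subset_convexHull ℝ _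
      (Or.inl ⟨0, h.zero, 0, ih.zero, zero_lie 0⟩), ?_⟩
    intro x hx
    have h1 : Convex ℝ {x : R.V | -x ∈ mx G Go (j + 1)} := by
      have := (convex_convexHull ℝ {z | (∃ x ∈ G, ∃ y ∈ mx G Go j, ⁅x, y⁆ = z) ∨
        ∃ x ∈ Go, ∃ y ∈ nbk G j, ⁅x, y⁆ = z}).neg
      exact this
    have h2 : mx G Go (j + 1) ⊆ {x : R.V | -x ∈ mx G Go (j + 1)} := by
      refine convexHull_min ?_ h1
      rintro _ (⟨a, ha, b, hb, rfl⟩ | ⟨a, ha, b, hb, rfl⟩)
      · have h3 : -⁅a, b⁆ ∈ mx G Go (j + 1) := by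
          rw [← neg_lie]
          exact lie_mem_mx (h.neg a ha) hb
        exact h3
      · have h3 : -⁅a, b⁆ ∈ mx G Go (j + 1) := by
          rw [← neg_lie]
          exact lie_mem_mx' (ho.neg a ha) hb
        exact h3
    exact h2 hx

theorem mx_sub {G Go : Set R.V} (hGo : Go ⊆ G) (j : ℕ) : mx G Go j ⊆ nbk G j := by
  induction j with
  | zero => exact hGo
  | succ j ih =>
    refine convexHull_min ?_ (convex_convexHull ℝ _)
    rintro _ (⟨a, ha, b, hb, rfl⟩ | ⟨a, ha, b, hb, rfl⟩)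
    · exact lie_mem_nbk ha (ih hb)
    · exact lie_mem_nbk (hGo ha) hb

/-- brackets of layers -/
theorem lie_nbk_mx {G Go : Set R.V} (h : CSy G) (ho : CSy Go) (i : ℕ) : ∀ (j : ℕ) {x y : R.V},
    x ∈ nbk G i → y ∈ mx G Go j → ⁅x, y⁆ ∈ ((2 : ℝ) ^ i) • mx G Go (i + j + 1) := by
  induction i with
  | zero =>
    intro j x y hx hy
    rw [pow_zero, one_smul, zero_add]
    exact lie_mem_mx hx hy
  | succ i ih =>
    intro j x y hx hy
    have hcs := csy_mx h ho (i + 1 + j + 1)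
    have h1 : Convex ℝ {x : R.V | ⁅x, y⁆ ∈ ((2 : ℝ) ^ (i + 1)) • mx G Go (i + 1 + j + 1)} := by
      let L : R.V →ₗ[ℝ] R.V :=
        { toFun := fun x => ⁅x, y⁆
          map_add' := fun a b => add_lie a b y
          map_smul' := fun c a => smul_lie c a y }
      exact (hcs.conv.smul _).linear_preimage L
    have h2 : nbk G (i + 1) ⊆
        {x : R.V | ⁅x, y⁆ ∈ ((2 : ℝ) ^ (i + 1)) • mx G Go (i + 1 + j + 1)} := by
      refine convexHull_min ?_ h1
      rintro _ ⟨a, ha, b, hb, rfl⟩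
      change ⁅⁅a, b⁆, y⁆ ∈ ((2 : ℝ) ^ (i + 1)) • mx G Go (i + 1 + j + 1)
      rw [lie_lie, sub_eq_add_neg, pow_succ, mul_two]
      refine hcs.mem_add (by positivity) (by positivity) ?_ (hcs.mem_neg ?_)
      · obtain ⟨z, hz, hz2⟩ := ih j hb hy
        refine ⟨⁅a, z⁆, ?_, ?_⟩
        · have e1 : i + 1 + j + 1 = (i + j + 1) + 1 := by omega
          rw [e1]
          exact lie_mem_mx ha hz
        · simp only at hz2 ⊢
          rw [← hz2, lie_smul]
      · have h3 := ih (j + 1) hb (lie_mem_mx ha hy)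
        have e2 : i + (j + 1) + 1 = i + 1 + j + 1 := by omega
        rwa [e2] at h3
    exact h2 hx

/-- the mixed part of the natural box -/
def mnb (G Go : Set R.V) : Set R.V :=
  {X | ∃ x : Fin R.m → R.V, (∀ i : Fin R.m, x i ∈ mx G Go i) ∧ X = ∑ i : Fin R.m, x i}

theorem csy_mnb {G Go : Set R.V} (h : CSy G) (ho : CSy Go) : CSy (mnb G Go) where
  conv := by
    rintro _ ⟨x, hx, rfl⟩ _ ⟨y, hy, rfl⟩ a b ha hb hab
    refine ⟨fun i => a • x i + b • y i, fun i => (csy_mx h ho i).conv (hx i) (hy i) ha hb hab, ?_⟩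
    rw [smul_sum, smul_sum, ← sum_add_distrib]
  zero := ⟨fun _ => 0, fun i => (csy_mx h ho i).zero, by simp⟩
  neg := by
    rintro _ ⟨x, hx, rfl⟩
    exact ⟨fun i => - x i, fun i => (csy_mx h ho i).neg _ (hx i), by rw [sum_neg_distrib]⟩

theorem mx_sub_mnb {G Go : Set R.V} (h : CSy G) (ho : CSy Go) (i : Fin R.m) {x : R.V}
    (hx : x ∈ mx G Go i) : x ∈ mnb G Go := by
  classical
  refine ⟨Pi.single i x, fun j => ?_, ?_⟩
  · by_cases hj : j = i
    · subst hj; rw [Pi.single_eq_same]; exact hx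
    · rw [Pi.single_eq_of_ne hj]; exact (csy_mx h ho j).zero
  · rw [Finset.sum_eq_single i]
    · rw [Pi.single_eq_same]
    · intro j _ hj; exact Pi.single_eq_of_ne hj _
    · intro h; exact absurd (mem_univ _) h

theorem mnb_sub {G Go : Set R.V} (hGo : Go ⊆ G) : mnb G Go ⊆ nb G := by
  rintro _ ⟨x, hx, rfl⟩
  exact ⟨x, fun i => mx_sub hGo i (hx i), rfl⟩

/-- the mixed part is an ideal box of the natural box -/
theorem cqv_mnb {G Go : Set R.V} (h : CSy G) (ho : CSy Go) (hGo : Go ⊆ G) :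
    CQV R (nb G) (mnb G Go) (R.m ^ 2 * 2 ^ R.m) where
  conv := (csy_mnb h ho).conv
  zero := (csy_mnb h ho).zero
  neg := (csy_mnb h ho).neg
  sub := mnb_sub hGo
  br := by
    rintro _ ⟨x, hx, rfl⟩ _ ⟨y, hy, rfl⟩
    have hcs := csy_mnb h ho
    rw [sum_lie_sum]
    have key : ∀ i j : Fin R.m, ⁅x i, y j⁆ ∈ ((2 : ℝ) ^ R.m) • mnb G Go := by
      intro i j
      obtain ⟨z, hz, hz2⟩ := lie_nbk_mx h ho i j (hx i) (hy j)
      simp only at hz2
      by_cases hij : (i : ℕ) + j + 1 < R.m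
      · have h1 : z ∈ mnb G Go := mx_sub_mnb h ho ⟨(i : ℕ) + j + 1, hij⟩ hz
        refine hcs.mem_mono (a := (2 : ℝ) ^ (i : ℕ)) (by positivity) ?_ ⟨z, h1, hz2⟩
        exact pow_le_pow_right₀ (by norm_num) i.2.le
      · have h1 : z = 0 := nbk_eq_zero (by omega) (mx_sub hGo _ hz)
        rw [h1, smul_zero] at hz2
        rw [← hz2]
        exact ⟨0, hcs.zero, by simp⟩
    have h1 := hcs.mem_sum (univ : Finset (Fin R.m)) (fun _ => (R.m : ℝ) * 2 ^ R.m)
      (fun i => ∑ j, ⁅x i, y j⁆) (fun _ _ => by positivity) (fun i _ => by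
        have h2 := hcs.mem_sum (univ : Finset (Fin R.m)) (fun _ => (2 : ℝ) ^ R.m)
          (fun j => ⁅x i, y j⁆) (fun _ _ => by positivity) (fun j _ => key i j)
        rwa [sum_const, nsmul_eq_mul, card_univ, Fintype.card_fin] at h2)
    rw [sum_const, nsmul_eq_mul, card_univ, Fintype.card_fin, ← mul_assoc, ← pow_two] at h1
    exact h1

/-- pure part plus mixed part, in each layer -/
theorem nbk_sub_add {G Gi Go : Set R.V} (h : CSy G) (ho : CSy Go) (hGi : Gi ⊆ G)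
    (hG : G ⊆ Gi + Go) (j : ℕ) : nbk G j ⊆ nbk Gi j + ((j : ℝ) + 1) • mx G Go j := by
  induction j with
  | zero =>
    simp only [Nat.cast_zero, zero_add, one_smul]
    exact hG
  | succ j ih =>
    refine convexHull_min ?_ ((convex_convexHull ℝ _).add ((convex_convexHull ℝ _).smul _))
    rintro _ ⟨x, hx, y, hy, rfl⟩
    obtain ⟨xi, hxi, xo, hxo, rfl⟩ := hG hx
    obtain ⟨yi, hyi, ym, hym, hyy⟩ := ih hy
    have hcs := csy_mx h ho (j + 1)
    refine ⟨⁅xi, yi⁆, lie_mem_nbk hxi hyi, ⁅xi, ym⁆ + ⁅xo, y⁆, ?_, ?_⟩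
    · have h1 : ⁅xi, ym⁆ ∈ ((j : ℝ) + 1) • mx G Go (j + 1) := by
        obtain ⟨z, hz, rfl⟩ := hym
        refine ⟨⁅xi, z⁆, lie_mem_mx (hGi hxi) hz, ?_⟩
        simp only [lie_smul]
      have h2 : ⁅xo, y⁆ ∈ (1 : ℝ) • mx G Go (j + 1) := by
        rw [one_smul]
        exact lie_mem_mx' hxo hy
      have h3 := hcs.mem_add (by positivity) zero_le_one h1 h2
      push_cast
      exact h3
    · have h4 : ⁅xi, y⁆ = ⁅xi, yi⁆ + ⁅xi, ym⁆ := by rw [← lie_add]; exact congrArg _ hyy.symm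
      simp only
      rw [add_lie, h4]
      abel

/-- pure part plus mixed part -/
theorem nb_sub_add {G Gi Go : Set R.V} (h : CSy G) (ho : CSy Go) (hGi : Gi ⊆ G)
    (hG : G ⊆ Gi + Go) {X : R.V} (hX : X ∈ nb G) :
    ∃ v ∈ nb Gi, ∃ w ∈ (R.m : ℝ) • mnb G Go, X = v + w := by
  obtain ⟨x, hx, rfl⟩ := hX
  have h1 : ∀ i : Fin R.m, ∃ a ∈ nbk Gi i, ∃ b ∈ mx G Go i, x i = a + (((i : ℕ) : ℝ) + 1) • b := by
    intro i
    obtain ⟨a, ha, b, hb, hab⟩ := nbk_sub_add h ho hGi hG i (hx i)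
    obtain ⟨c, hc, rfl⟩ := hb
    exact ⟨a, ha, c, hc, hab.symm⟩
  choose a ha b hb hab using h1
  refine ⟨∑ i, a i, ⟨a, ha, rfl⟩, ∑ i : Fin R.m, (((i : ℕ) : ℝ) + 1) • b i, ?_, ?_⟩
  · have hm : (0 : ℝ) < R.m := by exact_mod_cast R.hm0
    refine ⟨∑ i : Fin R.m, (((R.m : ℝ)⁻¹) * (((i : ℕ) : ℝ) + 1)) • b i, ⟨_, fun i => ?_, rfl⟩, ?_⟩
    · have h2 : ((R.m : ℝ)⁻¹) * (((i : ℕ) : ℝ) + 1) ≤ 1 := by
        rw [inv_mul_le_iff₀ hm, mul_one]
        exact_mod_cast i.2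
      have h3 := (csy_mx h ho (i : ℕ)).mem_mono (a := ((R.m : ℝ)⁻¹) * (((i : ℕ) : ℝ) + 1)) (b := 1)
        (by positivity) h2 ⟨b i, hb i, rfl⟩
      rwa [one_smul] at h3
    · simp only
      rw [smul_sum]
      refine sum_congr rfl fun i _ => ?_
      rw [smul_smul, ← mul_assoc, mul_inv_cancel₀ hm.ne', one_mul]
  · rw [← sum_add_distrib]
    exact sum_congr rfl fun i _ => hab i

/-- the mixed part is small if the `Go`-letters are small -/
theorem mx_sub_smul {G Go G' : Set R.V} (h' : CSy G') {t s : ℝ}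
    (hG : G ⊆ t • G') (hGo : Go ⊆ s • G') (j : ℕ) : mx G Go j ⊆ (s * t ^ j) • nbk G' j := by
  have hcs := csy_nbk h'
  induction j with
  | zero =>
    rw [pow_zero, mul_one]
    exact hGo
  | succ j ih =>
    refine convexHull_min ?_ ((hcs (j + 1)).conv.smul _)
    rintro _ (⟨x, hx, y, hy, rfl⟩ | ⟨x, hx, y, hy, rfl⟩)
    · obtain ⟨x', hx', rfl⟩ := hG hx
      obtain ⟨y', hy', rfl⟩ := ih hy
      refine ⟨⁅x', y'⁆, lie_mem_nbk hx' hy', ?_⟩
      simp only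
      rw [smul_lie, lie_smul, smul_smul]
      congr 1
      ring
    · obtain ⟨x', hx', rfl⟩ := hGo hx
      have h1 : y ∈ (t ^ (j + 1)) • nbk G' j := by
        rw [← nbk_smul t j]
        exact nbk_mono hG j hy
      obtain ⟨y', hy', rfl⟩ := h1
      refine ⟨⁅x', y'⁆, lie_mem_nbk hx' hy', ?_⟩
      simp only
      rw [smul_lie, lie_smul, smul_smul]

theorem mnb_sub_smul {G Go G' : Set R.V} (h' : CSy G') {t s : ℝ} (ht : 1 ≤ t) (hs : 0 ≤ s)
    (hG : G ⊆ t • G') (hGo : Go ⊆ s • G') : mnb G Go ⊆ (s * t ^ R.m) • nb G' := by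
  have ht0 : 0 < t := by linarith
  rintro _ ⟨x, hx, rfl⟩
  have h1 : ∀ i : Fin R.m, x i ∈ (s * t ^ R.m) • nbk G' i := fun i =>
    (csy_nbk h' i).mem_mono (by positivity) (mul_le_mul_of_nonneg_left
      (pow_le_pow_right₀ ht i.2.le) hs) (mx_sub_smul h' hG hGo i (hx i))
  choose y hy hxy using h1
  refine ⟨∑ i, y i, ⟨y, hy, rfl⟩, ?_⟩
  simp only
  rw [smul_sum]
  exact sum_congr rfl fun i _ => hxy i

end mix

end Vale.Agent.P188.H8
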