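import Vale.Agent.P188.H8.Split
import Vale.Agent.P188.H8.Law
import Vale.Agent.P188.H615.NBM
import Vale.Agent.P188.H131.ModelC
import Vale.Agent.P188.H131.HaarE

/-!
# P188, route B (ES), block VOL, part 6: pure groups

`p` = the letters of one ray (or the neutral letters); `u` = Lie subalgebra generated by them, with
Lebesgue measure; pure boxes; the law of `y * exp v`, `y ∼ m`, `v` uniform in the pure box.
-/

open Finset Filter Topology Pointwise MeasureTheory

set_option linter.all false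
set_option linter.unusedSectionVars false

namespace Vale.Agent.P188.H8

open Vale.Agent.P188.H796 Vale.Agent.P188.H615 Vale.Agent.P188.H131

section sizes

variable {ι : Type}

open Classical in
/-- sizes restricted to the letters in `p` -/
noncomputable def on (p : ι → Prop) (r : ι → ℝ) : ι → ℝ := fun i => if p i then r i else 0

open Classical in
/-- sizes restricted to the letters not in `p` -/
noncomputable def off (p : ι → Prop) (r : ι → ℝ) : ι → ℝ := fun i => if p i then 0 else r i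

theorem on_nonneg {p : ι → Prop} {r : ι → ℝ} (h : ∀ i, 0 ≤ r i) (i : ι) : 0 ≤ on p r i := by
  unfold on; split_ifs
  · exact h i
  · exact le_rfl

theorem off_nonneg {p : ι → Prop} {r : ι → ℝ} (h : ∀ i, 0 ≤ r i) (i : ι) : 0 ≤ off p r i := by
  unfold off; split_ifs
  · exact le_rfl
  · exact h i

theorem on_le {p : ι → Prop} {r : ι → ℝ} (h : ∀ i, 0 ≤ r i) (i : ι) : on p r i ≤ r i := by
  unfold on; split_ifs
  · exact le_rfl
  · exact h i

theorem off_le {p : ι → Prop} {r : ι → ℝ} (h : ∀ i, 0 ≤ r i) (i : ι) : off p r i ≤ r i := by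
  unfold off; split_ifs
  · exact h i
  · exact le_rfl

theorem on_mul {p : ι → Prop} {r : ι → ℝ} (c : ℝ) : (fun i => c * on p r i) = on p (fun i => c * r i) := by
  funext i
  unfold on; split_ifs
  · rfl
  · rw [mul_zero]

end sizes

section alg

variable {N : Type} [Group N] {d n : ℕ} {D : MB N d n} {A : Type} [NormedRing A]
  [NormedAlgebra ℝ A] [FiniteDimensional ℝ A] {R : RD D A} {ι : Type} [Fintype ι]

theorem LB_split (X : ι → R.V) (p : ι → Prop) (r : ι → ℝ) :
    LB X r ⊆ LB X (on p r) + LB X (off p r) := by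
  rintro _ ⟨y, hy, rfl⟩
  refine ⟨∑ i, y i • on p r i • X i, ⟨y, hy, rfl⟩, ∑ i, y i • off p r i • X i, ⟨y, hy, rfl⟩, ?_⟩
  simp only
  rw [← sum_add_distrib]
  refine sum_congr rfl fun i _ => ?_
  unfold on off
  split_ifs <;> simp

open Classical in
/-- the letters in `p`, the others replaced by `0` -/
noncomputable def Xp (X : ι → R.V) (p : ι → Prop) : ι → R.V := fun i => if p i then X i else 0

theorem LB_on (X : ι → R.V) (p : ι → Prop) (r : ι → ℝ) : LB X (on p r) = LB (Xp X p) r := by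
  unfold LB
  have : ∀ y : ι → ℝ, ∑ i, y i • on p r i • X i = ∑ i, y i • r i • Xp X p i := by
    intro y
    refine sum_congr rfl fun i _ => ?_
    unfold on Xp
    split_ifs <;> simp
  simp only [this]

/-- the Lie subalgebra generated by the letters in `p` -/
noncomputable def pu (X : ι → R.V) (p : ι → Prop) : Submodule ℝ R.V :=
  (LieSubalgebra.lieSpan ℝ R.V (Set.range (Xp X p))).toSubmodule

theorem pu_lie (X : ι → R.V) (p : ι → Prop) : ∀ x ∈ pu X p, ∀ y ∈ pu X p, ⁅x, y⁆ ∈ pu X p :=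
  fun _ hx _ hy => (LieSubalgebra.lieSpan ℝ R.V (Set.range (Xp X p))).lie_mem hx hy

theorem Xp_mem (X : ι → R.V) (p : ι → Prop) (i : ι) : Xp X p i ∈ pu X p :=
  LieSubalgebra.subset_lieSpan ⟨i, rfl⟩

theorem nb_on_le (X : ι → R.V) (p : ι → Prop) (r : ι → ℝ) :
    nb (LB X (on p r)) ⊆ (pu X p : Set R.V) := by
  refine nb_le (pu_lie X p) ?_
  rw [LB_on]
  rintro _ ⟨y, _, rfl⟩
  exact (pu X p).sum_mem fun i _ => (pu X p).smul_mem _ ((pu X p).smul_mem _ (Xp_mem X p i))

/-- the pure box -/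
def Ub (X : ι → R.V) (p : ι → Prop) (r : ι → ℝ) : Set (pu X p) :=
  {v | (v : R.V) ∈ nb (LB X (on p r))}

theorem nb_smul_sub' {G : Set R.V} (h : CSy G) {c : ℝ} (hc0 : 0 ≤ c) (hc : c ≤ 1) :
    (c ^ R.m) • nb G ⊆ nb (c • G) := by
  rintro _ ⟨_, ⟨x, hx, rfl⟩, rfl⟩
  refine ⟨fun i => (c ^ R.m) • x i, fun i => ?_, ?_⟩
  · rw [nbk_smul c]
    refine (csy_nbk h i).mem_mono (by positivity) ?_ ⟨x i, hx i, rfl⟩
    exact pow_le_pow_of_le_one hc0 hc i.2
  · simp only
    rw [smul_sum]

theorem Ub_mono (X : ι → R.V) (p : ι → Prop) {r r' : ι → ℝ} (h0 : ∀ i, 0 ≤ r i)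
    (h : ∀ i, p i → r i ≤ r' i) : Ub X p r ⊆ Ub X p r' := by
  intro v hv
  refine nb_mono (LB_mono X (on_nonneg h0) fun i => ?_) hv
  unfold on
  split_ifs with hp
  · exact h i hp
  · exact le_rfl

section meas

variable [MeasurableSpace A] [BorelSpace A]

theorem Ub_isCompact (X : ι → R.V) (p : ι → Prop) (r : ι → ℝ) : IsCompact (Ub X p r) := by
  have h1 : Topology.IsClosedEmbedding (fun v : pu X p => (v : R.V)) :=
    (pu X p).closed_of_finiteDimensional.isClosedEmbedding_subtypeVal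
  exact h1.isCompact_preimage (isCompact_nb X (on p r))

theorem Ub_meas (X : ι → R.V) (p : ι → Prop) (r : ι → ℝ) : MeasurableSet (Ub X p r) :=
  (Ub_isCompact X p r).measurableSet

variable {X : ι → R.V} {p : ι → Prop} (ν : Measure (pu X p)) [ν.IsAddHaarMeasure]

theorem Ub_fin (r : ι → ℝ) : ν (Ub X p r) < ⊤ := (Ub_isCompact X p r).measure_lt_top

theorem Ub_vol (r : ι → ℝ) {c : ℝ} (hc : 1 ≤ c) :
    ν (Ub X p fun i => c * r i) ≤
      ENNReal.ofReal ((c ^ R.m) ^ Module.finrank ℝ (pu X p)) * ν (Ub X p r) := by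
  have h1 : Ub X p (fun i => c * r i) ⊆ (c ^ R.m) • Ub X p r := by
    intro v hv
    have h2 : (v : R.V) ∈ nb (LB X (on p fun i => c * r i)) := hv
    rw [← on_mul, ← smul_LB] at h2
    obtain ⟨w, hw, hwv⟩ := nb_smul_sub (csy_LB X _) hc h2
    refine ⟨⟨w, nb_on_le X p r hw⟩, hw, ?_⟩
    exact Subtype.ext hwv
  refine (measure_mono h1).trans (le_of_eq ?_)
  have h2 := Measure.addHaar_smul ν (c ^ R.m) (Ub X p r)
  rw [abs_of_nonneg (by positivity)] at h2
  exact h2

theorem Ub_pos {r : ι → ℝ} (hr : ∀ i, p i → 0 < r i) : ν (Ub X p r) ≠ 0 := by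
  classical
  -- replace the sizes off `p` by `1`
  set r' : ι → ℝ := fun i => if p i then r i else 1 with hr'
  have hrr : on p r = on p r' := by
    funext i
    unfold on
    split_ifs with h
    · rw [hr']; simp [h]
    · rfl
  have hr0 : ∀ i, 0 < r' i := by
    intro i
    rw [hr']
    simp only
    split_ifs with h
    · exact hr i h
    · exact one_pos
  intro h0
  obtain ⟨C, hC1, hC⟩ := absorb (Xp X p) (pu X p) fun v hv => hv
  have hcs := csy_nb (csy_LB (Xp X p) r')
  have hU : ∀ v : pu X p, v ∈ Ub X p r ↔ (v : R.V) ∈ nb (LB (Xp X p) r') := by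
    intro v
    unfold Ub
    rw [Set.mem_ofPred_eq, hrr, LB_on]
  have hcov : (Set.univ : Set (pu X p)) ⊆ ⋃ k : ℕ, ((k : ℝ) + 1) • Ub X p r := by
    intro v _
    have h1 := hC C le_rfl (v : R.V) v.2
    set ρ : ℝ := C * (1 + ‖((v : R.V) : A)‖) with hρ
    have hρ0 : 0 ≤ ρ := mul_nonneg (by linarith) (by linarith [norm_nonneg ((v : R.V) : A)])
    obtain ⟨c, hc1, hc⟩ : ∃ c : ℝ, 1 ≤ c ∧ ∀ i, ρ ≤ c * r' i := by
      refine ⟨1 + ∑ i, ρ / r' i, ?_, fun i => ?_⟩
      · have : 0 ≤ ∑ i, ρ / r' i := Finset.sum_nonneg fun i _ => div_nonneg hρ0 (hr0 i).le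
        linarith
      · have h2 : ρ / r' i ≤ ∑ i, ρ / r' i :=
          Finset.single_le_sum (f := fun i => ρ / r' i) (fun i _ => div_nonneg hρ0 (hr0 i).le)
            (mem_univ i)
        have h3 : ρ = ρ / r' i * r' i := (div_mul_cancel₀ _ (hr0 i).ne').symm
        calc ρ = ρ / r' i * r' i := h3
          _ ≤ (1 + ∑ i, ρ / r' i) * r' i := mul_le_mul_of_nonneg_right (by linarith) (hr0 i).le
    have h2 : (v : R.V) ∈ nb (c • LB (Xp X p) r') := by
      rw [smul_LB]
      exact nb_mono (LB_mono _ (fun _ => hρ0) hc) h1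
    have h3 := nb_smul_sub (csy_LB (Xp X p) r') hc1 h2
    obtain ⟨k, hk⟩ := exists_nat_ge (c ^ R.m)
    refine Set.mem_iUnion.2 ⟨k, ?_⟩
    obtain ⟨w, hw, hwv⟩ := hcs.mem_mono (a := c ^ R.m) (b := (k : ℝ) + 1) (by positivity)
      (by linarith) h3
    have hwp : w ∈ pu X p := by
      have := nb_on_le X p r'
      rw [LB_on] at this
      exact this hw
    refine ⟨⟨w, hwp⟩, (hU _).2 hw, ?_⟩
    exact Subtype.ext hwv
  have h1 : ν (Set.univ : Set (pu X p)) = 0 := by
    refine measure_mono_null hcov ?_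
    rw [measure_iUnion_null_iff]
    intro k
    have h2 := Measure.addHaar_smul ν ((k : ℝ) + 1) (Ub X p r)
    rw [h0, mul_zero] at h2
    exact h2
  exact (NeZero.ne (ν (Set.univ : Set (pu X p)))) h1

end meas

end alg

end Vale.Agent.P188.H8
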