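import Vale.Agent.P188.H8.PureC

/-!
# P188, route B (ES), block VOL, part 7: the law of `y * exp v`, `v` uniform in a pure box, in `S`
-/

open Finset Filter Topology Pointwise MeasureTheory

set_option linter.all false

namespace Vale.Agent.P188.H8

open Vale.Agent.P188.H796 Vale.Agent.P188.H615 Vale.Agent.P188.H131

section dom

variable {Γ : Type} [Group Γ] {N : Subgroup Γ} [hN : N.Normal] {d n : ℕ} (D : MB N d n)
  {ι : Type} [Fintype ι]

/-- natural boxes in `S` -/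
def bx (X : ι → D.R.V) (r : ι → ℝ) : Set D.S := {s | ∃ v ∈ nb (LB X r), D.ex v = s}

/-- the exponential map on the pure Lie algebra -/
noncomputable def jU (X : ι → D.R.V) (p : ι → Prop) : pu X p → D.S := fun v => D.ex (v : D.R.V)

theorem measurable_jU (X : ι → D.R.V) (p : ι → Prop) : Measurable (jU D X p) :=
  (measurable_ex (D := D)).comp measurable_subtype_coe

theorem ex_mul_inN (v : D.R.V) (x : D.R.NR) : D.ex v * D.inN x = D.inN (D.R.Ex v * x) := by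
  rw [map_mul]; rfl

theorem mem_bx_inN {X : ι → D.R.V} {r : ι → ℝ} {x : D.R.NR} :
    D.R.Lo x ∈ nb (LB X r) → D.inN x ∈ bx D X r := fun h =>
  ⟨D.R.Lo x, h, by
    change D.inN (D.R.Ex (D.R.Lo x)) = _
    rw [D.R.Ex_Lo]⟩

/-- **split**: `g = n' * x'` with `n'` in the (small) mixed part, `x'` pure -/
theorem split_bx (X : ι → D.R.V) (p : ι → Prop) : ∃ C : ℝ, 1 ≤ C ∧ ∀ R3 R : ι → ℝ,
    (∀ i, 0 ≤ R3 i) → (∀ i, 0 ≤ R i) → ∀ t s δ : ℝ, 1 ≤ t → 0 ≤ s → 0 < δ → δ ≤ 1 →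
    C * (s * t ^ D.R.m) ≤ δ ^ D.R.m → (∀ i, R3 i ≤ t * R i) → (∀ i, ¬ p i → R3 i ≤ s * R i) →
    ∀ g ∈ bx D X R3, ∃ (n' : D.S) (x' : pu X p), g = n' * jU D X p x' ∧ x' ∈ Ub X p R3 ∧
      n' ∈ bx D X (fun i => δ * R i) ∧ ∀ x ∈ Ub X p R3,
        jU D X p x * n' * (jU D X p x)⁻¹ ∈ bx D X (fun i => δ * R i) ∧
        ∃ y ∈ Ub X p (fun i => C * R3 i), jU D X p y = jU D X p x * jU D X p x' := by
  obtain ⟨C, hC1, H⟩ := key1 D.R (c := 1) le_rfl
  refine ⟨C, hC1, fun R3 R h3 h0 t s δ ht hs hδ0 hδ1 hst hRt hRs g hg => ?_⟩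
  obtain ⟨v, hv, rfl⟩ := hg
  have hcs := csy_LB X R
  have hGt : LB X R3 ⊆ t • LB X R := by
    rw [smul_LB]
    exact LB_mono X h3 hRt
  have hGs : LB X (off p R3) ⊆ s • LB X R := by
    rw [smul_LB]
    refine LB_mono X (off_nonneg h3) fun i => ?_
    unfold off
    split_ifs with hi
    · exact mul_nonneg hs (h0 i)
    · exact hRs i hi
  obtain ⟨n', x', hg, hx', hn', hall⟩ := H (LB X R3) (LB X (on p R3)) (LB X (off p R3)) (LB X R)
    (csy_LB X _) (csy_LB X _) (csy_LB X _) hcs (LB_mono X (on_nonneg h3) (on_le h3))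
    (LB_mono X (off_nonneg h3) (off_le h3)) (LB_split X p R3) t s ht hs hGt hGs (D.R.Ex v)
    (by rw [mem_EK, D.R.Lo_Ex]; exact hv)
  have hsub : (C * (s * t ^ D.R.m)) • nb (LB X R) ⊆ nb (LB X fun i => δ * R i) := by
    intro w hw
    rw [← smul_LB]
    exact nb_smul_sub' hcs hδ0.le hδ1
      ((csy_nb hcs).mem_mono (by positivity) hst hw)
  have hsmall : ∀ w : D.R.NR, w ∈ EK D.R ((C * (s * t ^ D.R.m)) • nb (LB X R)) →
      D.inN w ∈ bx D X (fun i => δ * R i) := fun w hw => mem_bx_inN D (hsub hw)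
  have hx'u : D.R.Lo x' ∈ pu X p := nb_on_le X p R3 hx'
  refine ⟨D.inN n', ⟨D.R.Lo x', hx'u⟩, ?_, hx', ?_, fun x hx => ?_⟩
  · change D.inN (D.R.Ex v) = D.inN n' * D.inN (D.R.Ex (D.R.Lo x'))
    rw [D.R.Ex_Lo, hg, map_mul]
  · have h1 := (hall 1 (by
      rw [mem_EK, Lo_one, one_smul]
      exact (csy_nb (csy_LB X _)).zero)).1
    rw [one_mul, inv_one, mul_one] at h1
    exact hsmall _ h1
  · have hxm : D.R.Ex (x : D.R.V) ∈ EK D.R ((1 : ℝ) • nb (LB X (on p R3))) := by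
      rw [mem_EK, D.R.Lo_Ex, one_smul]
      exact hx
    obtain ⟨h1, h2⟩ := hall _ hxm
    constructor
    · have h3' : jU D X p x * D.inN n' * (jU D X p x)⁻¹ =
          D.inN (D.R.Ex (x : D.R.V) * n' * (D.R.Ex (x : D.R.V))⁻¹) := by
        rw [map_mul, map_mul, map_inv]; rfl
      rw [h3']
      exact hsmall _ h1
    · have h4 : D.R.Lo (D.R.Ex (x : D.R.V) * x') ∈ nb (LB X (on p fun i => C * R3 i)) := by
        rw [← on_mul, ← smul_LB]
        exact smul_nb_sub (csy_LB X _) hC1 h2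
      refine ⟨⟨_, nb_on_le X p _ h4⟩, h4, ?_⟩
      change D.inN (D.R.Ex (D.R.Lo (D.R.Ex (x : D.R.V) * x'))) =
        D.inN (D.R.Ex (x : D.R.V)) * D.inN (D.R.Ex (D.R.Lo x'))
      rw [D.R.Ex_Lo, D.R.Ex_Lo, map_mul]

/-- **the law of `y * exp v`** (KEY POINT 1 of 8195) -/
theorem dom_pure [Countable Γ] (X : ι → D.R.V) (p : ι → Prop) (ν : Measure (pu X p))
    [ν.IsAddHaarMeasure] : ∃ C : ℝ, 1 ≤ C ∧ ∀ R3 R : ι → ℝ,
    (∀ i, 0 ≤ R3 i) → (∀ i, 0 ≤ R i) → ∀ t s δ : ℝ, 1 ≤ t → 0 ≤ s → 0 < δ → δ ≤ 1 →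
    C * (s * t ^ D.R.m) ≤ δ ^ D.R.m → (∀ i, R3 i ≤ t * R i) → (∀ i, ¬ p i → R3 i ≤ s * R i) →
    ∀ m m' : Measure D.S, SFinite m → SFinite m' → Dom m m' (bx D X fun i => δ * R i) →
    Dom (law (jU D X p) m (ν.restrict (Ub X p R3)))
      (law (jU D X p) m' (ν.restrict (Ub X p fun i => C * R3 i))) (bx D X R3) := by
  obtain ⟨C, hC1, H⟩ := split_bx D X p
  refine ⟨C, hC1, fun R3 R h3 h0 t s δ ht hs hδ0 hδ1 hst hRt hRs m m' hm hm' hd => ?_⟩
  haveI := hm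
  haveI := hm'
  haveI := mm (D := D)
  have hr : ∀ g : D.S, Measurable fun x : D.S => x * g := fun g => (muD_right D g).measurable
  have hj : Measurable fun q : D.S × pu X p => q.1 * jU D X p q.2 :=
    measurable_fst.mul ((measurable_jU D X p).comp measurable_snd)
  refine dom_step hr hj hd (Ub_meas X p R3) (Ub_meas X p _) fun g hg => ?_
  obtain ⟨n', x', hgn, hx', hn', hall⟩ := H R3 R h3 h0 t s δ ht hs hδ0 hδ1 hst hRt hRs g hg
  let x'' : ExS D.R (pu X p) (pu_lie X p) := ⟨D.R.Ex (x' : D.R.V), by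
    rw [mem_ExS, D.R.Lo_Ex]; exact x'.2⟩
  refine ⟨n', jU D X p x', RT (pu_lie X p) x'', hgn, mp_RT (pu_lie X p) ν x'', fun x hx => ?_⟩
  obtain ⟨h1, y, hy, hyx⟩ := hall x hx
  have h2 : jU D X p (RT (pu_lie X p) x'' x) = jU D X p x * jU D X p x' := by
    change D.inN (D.R.Ex (RT (pu_lie X p) x'' x : pu X p)) = _
    rw [Ex_RT, map_mul]; rfl
  refine ⟨h1, h2, ?_⟩
  have h3 : RT (pu_lie X p) x'' x = y := by
    have h4 : D.ex ((RT (pu_lie X p) x'' x : pu X p) : D.R.V) = D.ex (y : D.R.V) :=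
      h2.trans hyx.symm
    exact Subtype.ext (D.ex_injective h4)
  rw [h3]
  exact hy

end dom

end Vale.Agent.P188.H8
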