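import Vale.Agent.P188.H615.NB

/-!
# P188, route B (ES), block VOL, part 3: relative quantitative BCH

`K` convex symmetric with `[K, K] ⊆ C0 K`, `Q ⊆ K` convex symmetric with `[K, Q] ⊆ C0 Q`:
`log (g exp (X + c Y)) - log (g exp X) ∈ (C c) Q` for `X ∈ K`, `Y ∈ Q`.
-/

open Finset Filter Topology Pointwise

universe u v

namespace Vale.Agent.P188.H8

open Vale.Agent.P188.H796
open Vale.Agent.P188.H615

section sets

variable {A : Type*} [Ring A] [Algebra ℝ A]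

/-- `Q` is an ideal box of `K` -/
structure CQ (K Q : Set A) (C0 : ℝ) : Prop where
  conv : Convex ℝ Q
  zero : (0 : A) ∈ Q
  neg : ∀ x ∈ Q, -x ∈ Q
  sub : Q ⊆ K
  br : ∀ x ∈ K, ∀ y ∈ Q, x * y - y * x ∈ C0 • Q

variable {K Q : Set A} {C0 : ℝ}

theorem CQ.mem_zero (h : CQ K Q C0) (a : ℝ) : (0 : A) ∈ a • Q := ⟨0, h.zero, by simp⟩

theorem CQ.mem_add (h : CQ K Q C0) {a b : ℝ} (ha : 0 ≤ a) (hb : 0 ≤ b) {x y : A}
    (hx : x ∈ a • Q) (hy : y ∈ b • Q) : x + y ∈ (a + b) • Q := by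
  rw [h.conv.add_smul ha hb]
  exact Set.add_mem_add hx hy

theorem CQ.mem_mono (h : CQ K Q C0) {a b : ℝ} (ha : 0 ≤ a) (hab : a ≤ b) {x : A}
    (hx : x ∈ a • Q) : x ∈ b • Q := by
  have := h.mem_add ha (sub_nonneg.2 hab) hx (h.mem_zero (b - a))
  rwa [add_zero, add_sub_cancel] at this

theorem CQ.mem_neg (h : CQ K Q C0) {a : ℝ} {x : A} (hx : x ∈ a • Q) : -x ∈ a • Q := by
  obtain ⟨y, hy, rfl⟩ := hx
  exact ⟨-y, h.neg y hy, by simp⟩

theorem CQ.mem_smul (h : CQ K Q C0) {a : ℝ} (t : ℝ) {x : A} (hx : x ∈ a • Q) :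
    t • x ∈ (|t| * a) • Q := by
  rcases abs_choice t with ht | ht
  · rw [ht]
    obtain ⟨y, hy, rfl⟩ := hx
    exact ⟨y, hy, by simp only [mul_smul]⟩
  · rw [ht]
    have : t • x = -((-t) • x) := by simp
    rw [this]
    refine h.mem_neg ?_
    obtain ⟨y, hy, rfl⟩ := hx
    exact ⟨y, hy, by simp only [mul_smul]⟩

theorem CQ.mem_br (h : CQ K Q C0) {a b : ℝ} {x y : A}
    (hx : x ∈ a • K) (hy : y ∈ b • Q) : x * y - y * x ∈ (a * b * C0) • Q := by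
  obtain ⟨x, hx, rfl⟩ := hx
  obtain ⟨y, hy, rfl⟩ := hy
  obtain ⟨z, hz, hz2⟩ := h.br x hx y hy
  refine ⟨z, hz, ?_⟩
  simp only [smul_mul_assoc, mul_smul_comm, mul_smul] at hz2 ⊢
  rw [hz2, smul_sub, smul_sub, smul_comm b a]

theorem CQ.mem_sum (h : CQ K Q C0) {ι : Type*} (s : Finset ι) (a : ι → ℝ) (f : ι → A)
    (ha : ∀ i ∈ s, 0 ≤ a i) (hf : ∀ i ∈ s, f i ∈ a i • Q) :
    ∑ i ∈ s, f i ∈ (∑ i ∈ s, a i) • Q := by
  classical
  induction s using Finset.induction_on with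
  | empty => simpa using h.mem_zero 0
  | insert i s hi ih =>
    rw [sum_insert hi, sum_insert hi]
    exact h.mem_add (ha i (mem_insert_self i s))
      (sum_nonneg fun j hj => ha j (mem_insert_of_mem hj)) (hf i (mem_insert_self i s))
      (ih (fun j hj => ha j (mem_insert_of_mem hj)) fun j hj => hf j (mem_insert_of_mem hj))

theorem Qi_coeffQ (h : CQ K Q C0) (hC0 : 0 ≤ C0) {P R : Polynomial A} {B B0 : ℝ} (hB : 0 ≤ B)
    (hB0 : 0 ≤ B0)
    {k : ℕ} (hP : ∀ j ≤ k, P.coeff j ∈ B • K) (hQ : ∀ j ≤ k, R.coeff j ∈ B0 • Q) (i : ℕ) :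
    ∀ j ≤ k, (Qi P R i).coeff j ∈ (B0 * ((k + 1) * B * C0) ^ i) • Q := by
  induction i with
  | zero =>
    intro j hj
    rw [Qi, pow_zero, mul_one]
    exact hQ j hj
  | succ i ih =>
    intro j hj
    rw [Qi, coeff_bracket]
    have h2 := h.mem_sum (antidiagonal j) (fun _ => B * (B0 * ((k + 1) * B * C0) ^ i) * C0)
      (fun x => P.coeff x.1 * (Qi P R i).coeff x.2 - (Qi P R i).coeff x.2 * P.coeff x.1)
      (fun _ _ => by positivity)
      (fun x hx => by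
        rw [HasAntidiagonal.mem_antidiagonal] at hx
        exact h.mem_br (hP x.1 (by omega)) (ih x.2 (by omega)))
    refine h.mem_mono ?_ ?_ h2
    · exact sum_nonneg fun _ _ => by positivity
    · rw [sum_const, Finset.Nat.card_antidiagonal, nsmul_eq_mul, pow_succ]
      have h3 : ((j + 1 : ℕ) : ℝ) ≤ k + 1 := by exact_mod_cast Nat.succ_le_succ hj
      have h4 : 0 ≤ B * (B0 * ((k + 1) * B * C0) ^ i) * C0 := by positivity
      calc ((j + 1 : ℕ) : ℝ) * (B * (B0 * ((k + 1) * B * C0) ^ i) * C0)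
          ≤ (k + 1) * (B * (B0 * ((k + 1) * B * C0) ^ i) * C0) := mul_le_mul_of_nonneg_right h3 h4
        _ = _ := by ring

end sets

section main

variable {A : Type*} [NormedRing A] [NormedAlgebra ℝ A] {m : ℕ}

theorem inh_coeffQ {K Q : Set A} {C0 : ℝ} (hK : CS K C0) (hQ : CQ K Q C0) {X Y : A} (hX : X ∈ K)
    (hY : Y ∈ Q) (k : ℕ) : ∀ j ≤ k,
    (∑ i ∈ range ((psi m).natDegree + 1), (psi m).coeff i • Qi (lin X Y) (Polynomial.C Y) i).coeff j
      ∈ B1 m C0 k • Q := by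
  intro j hj
  rw [Polynomial.finsetSum_coeff]
  simp only [Polynomial.coeff_smul]
  refine hQ.mem_sum _ _ _ (fun i _ => by have := hK.nonneg; positivity) fun i _ => ?_
  refine hQ.mem_smul _ (Qi_coeffQ hQ hK.nonneg zero_le_one zero_le_one ?_ ?_ i j hj)
  · intro l _
    rw [lin_coeff, one_smul]
    split_ifs
    · exact hX
    · exact hQ.sub hY
    · exact hK.zero
  · intro l _
    rw [Polynomial.coeff_C, one_smul]
    split_ifs
    · exact hY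
    · exact hQ.zero

/-- **relative quantitative BCH** -/
theorem qbchQ_gen (hm : 0 < m) {C0 : ℝ} (hC0 : 0 ≤ C0) : ∃ C : ℝ, 0 ≤ C ∧
    ∀ (K Q : Set A), CS K C0 → CQ K Q C0 → ∀ X ∈ K, ∀ Y ∈ Q, ∀ g : A,
    (∀ s : ℝ, (X + s • Y) ^ m = 0) → (∀ s : ℝ, (g * ex m (X + s • Y) - 1) ^ m = 0) →
    lg m (g * ex m X) ∈ K →
    ∀ c : ℝ, 0 ≤ c → c ≤ 1 → lg m (g * ex m (X + c • Y)) - lg m (g * ex m X) ∈ (C * c) • Q := by
  set a := aa m hm with ha
  set B := BB a C0 (B1 m C0) (m * m) with hBdef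
  set M : ℝ := ∑ i ∈ range (a.natDegree + 1), |a.coeff i| *
      (B1 m C0 (m * m) * ((((m * m : ℕ) : ℝ) + 1) * B * C0) ^ i) with hM
  have hBn : 0 ≤ B := BB_nonneg a hC0 (B1_nonneg m hC0) (m * m)
  have hMn : 0 ≤ M := sum_nonneg fun i _ => by
    have := B1_nonneg m hC0 (m * m); positivity
  refine ⟨∑ k ∈ range (m * m), M, sum_nonneg fun _ _ => hMn, ?_⟩
  intro K Q hK hQ X hX Y hY g hXY hu h0K c hc0 hc1
  have hdeg := PP_natDegree (m := m) g (lin_natDegree X Y)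
  have h0 : (PP m g (lin X Y)).coeff 0 = lg m (g * ex m X) := by
    have h1 := ev_PP (m := m) g (lin X Y) 0
    rw [ev_lin, zero_smul, add_zero,
      ev_eq_sum 0 _ (m * m + 1) (Nat.lt_succ_of_le hdeg), sum_range_succ'] at h1
    simpa using h1
  have hco := P_coeff hK a (B1_nonneg m hC0) (by rw [h0]; exact h0K)
    (fun k => inh_coeff (m := m) hK hX (hQ.sub hY) k) (PP_deriv hm hXY hu) (m * m)
  have hD := PP_deriv hm hXY hu
  have hco2 : ∀ k < m * m, (PP m g (lin X Y)).coeff (k + 1) ∈ M • Q := by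
    intro k hk
    rw [coeff_succ_eq, hD]
    have h1 : (∑ i ∈ range ((aa m hm).natDegree + 1), (aa m hm).coeff i • Qi (PP m g (lin X Y))
        (∑ i ∈ range ((psi m).natDegree + 1), (psi m).coeff i • Qi (lin X Y) (Polynomial.C Y) i)
        i).coeff k ∈ M • Q := by
      rw [Polynomial.finsetSum_coeff]
      simp only [Polynomial.coeff_smul]
      refine hQ.mem_sum _ _ _ (fun i _ => by
        have := B1_nonneg m hC0 (m * m); positivity) fun i _ => ?_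
      exact hQ.mem_smul _ (Qi_coeffQ hQ hC0 hBn (B1_nonneg m hC0 _) (fun j hj => hco j hj)
        (fun j hj => inh_coeffQ hK hQ hX hY (m * m) j hj) i k (by omega))
    have h5 := hQ.mem_smul (((k + 1 : ℕ) : ℝ)⁻¹) h1
    have h6 : |(((k + 1 : ℕ) : ℝ)⁻¹)| ≤ 1 := by
      rw [abs_of_nonneg (by positivity)]
      refine inv_le_one_of_one_le₀ ?_
      exact_mod_cast Nat.succ_le_succ (Nat.zero_le k)
    refine hQ.mem_mono (mul_nonneg (abs_nonneg _) hMn) ?_ h5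
    calc _ ≤ 1 * M := mul_le_mul_of_nonneg_right h6 hMn
      _ = M := one_mul M
  have h1 := ev_PP (m := m) g (lin X Y) c
  rw [ev_lin, ev_eq_sum c _ (m * m + 1) (Nat.lt_succ_of_le hdeg), sum_range_succ',
    pow_zero, one_smul, h0] at h1
  rw [← h1, add_sub_cancel_right, sum_mul]
  refine hQ.mem_sum _ _ _ (fun _ _ => mul_nonneg hMn hc0) fun k hk => ?_
  have h2 := hQ.mem_smul (c ^ (k + 1)) (hco2 k (mem_range.1 hk))
  refine hQ.mem_mono (mul_nonneg (abs_nonneg _) hMn) ?_ h2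
  rw [abs_of_nonneg (by positivity), mul_comm]
  refine mul_le_mul_of_nonneg_left ?_ hMn
  calc c ^ (k + 1) = c ^ k * c := pow_succ c k
    _ ≤ 1 * c := mul_le_mul_of_nonneg_right (pow_le_one₀ hc0 hc1) hc0
    _ = c := one_mul c

end main

section csv

variable {N : Type u} [Group N] {d n : ℕ} {D : MB N d n} {A : Type v} [NormedRing A]
  [NormedAlgebra ℝ A] [FiniteDimensional ℝ A] (R : RD D A)

/-- `Q` is an ideal box of `K` (in the Lie algebra) -/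
structure CQV (K Q : Set R.V) (C0 : ℝ) : Prop where
  conv : Convex ℝ Q
  zero : (0 : R.V) ∈ Q
  neg : ∀ x ∈ Q, -x ∈ Q
  sub : Q ⊆ K
  br : ∀ x ∈ K, ∀ y ∈ Q, ⁅x, y⁆ ∈ C0 • Q

variable {R} {K Q : Set R.V} {C0 : ℝ}

theorem CQV.toCQ (h : CQV R K Q C0) :
    CQ ((fun x : R.V => (x : A)) '' K) ((fun x : R.V => (x : A)) '' Q) C0 where
  conv := h.conv.linear_image R.V.subtype
  zero := ⟨0, h.zero, rfl⟩
  neg := by
    rintro _ ⟨x, hx, rfl⟩
    exact ⟨-x, h.neg x hx, rfl⟩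
  sub := Set.image_mono h.sub
  br := by
    rintro _ ⟨x, hx, rfl⟩ _ ⟨y, hy, rfl⟩
    exact (coe_mem_smul_image (v := ⁅x, y⁆)).2 (h.br x hx y hy)

theorem CQV.mem_add (h : CQV R K Q C0) {a b : ℝ} (ha : 0 ≤ a) (hb : 0 ≤ b) {x y : R.V}
    (hx : x ∈ a • Q) (hy : y ∈ b • Q) : x + y ∈ (a + b) • Q := by
  rw [h.conv.add_smul ha hb]
  exact Set.add_mem_add hx hy

theorem CQV.mem_mono (h : CQV R K Q C0) {a b : ℝ} (ha : 0 ≤ a) (hab : a ≤ b) {x : R.V}
    (hx : x ∈ a • Q) : x ∈ b • Q := by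
  have := h.mem_add ha (sub_nonneg.2 hab) hx (⟨0, h.zero, by simp⟩ : (0 : R.V) ∈ (b - a) • Q)
  rwa [add_zero, add_sub_cancel] at this

theorem CQV.mem_neg (h : CQV R K Q C0) {a : ℝ} {x : R.V} (hx : x ∈ a • Q) : -x ∈ a • Q := by
  obtain ⟨y, hy, rfl⟩ := hx
  exact ⟨-y, h.neg y hy, by simp⟩

/-- relative quantitative BCH on `V` -/
theorem qbchQV (R : RD D A) {C0 : ℝ} (hC0 : 0 ≤ C0) : ∃ C : ℝ, 0 ≤ C ∧ ∀ K Q : Set R.V,
    CSV R K C0 → CQV R K Q C0 →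
    ∀ x : R.NR, ∀ v ∈ K, ∀ w ∈ Q, R.Lo (x * R.Ex v) ∈ K → ∀ c : ℝ, 0 ≤ c → c ≤ 1 →
    R.Lo (x * R.Ex (v + c • w)) - R.Lo (x * R.Ex v) ∈ (C * c) • Q := by
  obtain ⟨C, hC, H⟩ := qbchQ_gen (A := A) R.hm0 hC0
  refine ⟨C, hC, fun K Q hK hQ x v hv w hw hx c hc0 hc1 => ?_⟩
  have h := H _ _ hK.toCS hQ.toCQ (v : A) (coe_mem_image.2 hv) (w : A) (coe_mem_image.2 hw)
    (R.toA x) (V_pow_add R v w) (V_unip R x v w) (by
      rw [← coe_Lo_mul_Ex]
      exact coe_mem_image.2 hx) c hc0 hc1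
  refine coe_mem_smul_image.1 ?_
  rw [Submodule.coe_sub, coe_Lo_mul_Ex, coe_Lo_mul_Ex]
  exact h

end csv

end Vale.Agent.P188.H8
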