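import Vale.Agent.P188.H8.Mix

/-!
# P188, route B (ES), block VOL, part 5: splitting into mixed and pure part, conjugation
-/

open Finset Filter Topology Pointwise

universe u v

namespace Vale.Agent.P188.H8

open Vale.Agent.P188.H796
open Vale.Agent.P188.H615

section split

variable {N : Type u} [Group N] {d n : ℕ} {D : MB N d n} {A : Type v} [NormedRing A]
  [NormedAlgebra ℝ A] [FiniteDimensional ℝ A] {R : RD D A}

theorem CQV.smul {K Q : Set R.V} {C0 : ℝ} (h : CQV R K Q C0) (c : ℝ) :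
    CQV R (c • K) (c • Q) (c * C0) where
  conv := h.conv.smul c
  zero := ⟨0, h.zero, by simp⟩
  neg := fun x hx => h.mem_neg hx
  sub := Set.smul_set_mono h.sub
  br := by
    rintro _ ⟨x, hx, rfl⟩ _ ⟨y, hy, rfl⟩
    obtain ⟨z, hz, hz2⟩ := h.br x hx y hy
    refine ⟨c • z, ⟨z, hz, rfl⟩, ?_⟩
    simp only at hz2 ⊢
    rw [smul_lie, lie_smul, ← hz2, smul_smul, smul_smul, smul_smul]
    congr 1; ring

theorem CSV.mono {K : Set R.V} {C0 C1 : ℝ} (h : CSV R K C0) (h1 : C0 ≤ C1) : CSV R K C1 where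
  conv := h.conv
  zero := h.zero
  neg := h.neg
  nonneg := h.nonneg.trans h1
  br := fun x hx y hy => h.mem_mono h.nonneg h1 (h.br x hx y hy)

theorem CQV.mono {K Q : Set R.V} {C0 C1 : ℝ} (h : CQV R K Q C0) (h0 : 0 ≤ C0) (h1 : C0 ≤ C1) :
    CQV R K Q C1 where
  conv := h.conv
  zero := h.zero
  neg := h.neg
  sub := h.sub
  br := fun x hx y hy => h.mem_mono h0 h1 (h.br x hx y hy)

/-- `exp (v + w) = n' * exp v` with `n' ∈ exp (C c Q)` for `v ∈ K`, `w ∈ c Q` -/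
theorem exists_split (R : RD D A) {C0 : ℝ} (hC0 : 0 ≤ C0) : ∃ C : ℝ, 0 ≤ C ∧ ∀ K Q : Set R.V,
    CSV R K C0 → CQV R K Q C0 → ∀ v ∈ K, ∀ c : ℝ, 0 ≤ c → c ≤ 1 → ∀ w ∈ c • Q,
    R.Lo (R.Ex (v + w) * (R.Ex v)⁻¹) ∈ (C * c) • Q := by
  obtain ⟨C, hC, H⟩ := qbchQV R hC0
  refine ⟨C, hC, fun K Q hK hQ v hv c hc0 hc1 w hw => ?_⟩
  obtain ⟨w, hw, rfl⟩ := hw
  have h1 := H K Q hK hQ (R.Ex v) (-v) (hK.neg v hv) (-w) (hQ.neg w hw) (by
    rw [R.Ex_neg, mul_inv_cancel, Lo_one]; exact hK.zero) c hc0 hc1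
  rw [R.Ex_neg v, mul_inv_cancel, Lo_one, sub_zero] at h1
  have h2 := hQ.mem_neg h1
  rw [← Lo_inv] at h2
  have h3 : (R.Ex v * R.Ex (-v + c • -w))⁻¹ = R.Ex (v + c • w) * (R.Ex v)⁻¹ := by
    rw [mul_inv_rev, ← R.Ex_neg (-v + c • -w)]
    congr 2
    rw [smul_neg]
    abel
  rwa [h3] at h2

/-- conjugation of the ideal box -/
theorem exists_conj (R : RD D A) {C0 : ℝ} (hC0 : 0 ≤ C0) : ∃ C : ℝ, 0 ≤ C ∧ ∀ K Q : Set R.V,
    CSV R K C0 → CQV R K Q C0 → ∀ x ∈ EK R K, ∀ c : ℝ, 0 ≤ c → c ≤ 1 → ∀ y ∈ EK R (c • Q),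
    x * y * x⁻¹ ∈ EK R ((C * c) • Q) := by
  obtain ⟨C1, hC1, H1⟩ := qbchQV R hC0
  obtain ⟨C2, hC2, H2⟩ := exists_split R (C0 := (1 + C1) * C0) (by positivity)
  refine ⟨C2 * (1 + C1), by positivity, fun K Q hK hQ x hx c hc0 hc1 y hy => ?_⟩
  obtain ⟨w, hw, hwy⟩ := hy
  simp only at hwy
  have h1 := H1 K Q hK hQ x 0 hK.zero w hw (by rw [R.Ex_zero, mul_one]; exact hx) c hc0 hc1
  rw [zero_add, R.Ex_zero, mul_one, hwy, R.Ex_Lo] at h1
  have h2 := H2 ((1 + C1) • K) ((1 + C1) • Q) (hK.smul (by positivity)) (hQ.smul _) (R.Lo x)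
    (by
      have := hK.mem_mono (a := 1) (b := 1 + C1) zero_le_one (by linarith)
        (by rw [one_smul]; exact hx)
      exact this) c hc0 hc1 (R.Lo (x * y) - R.Lo x) (by
      rw [smul_smul]
      exact hQ.mem_mono (by positivity) (by nlinarith) h1)
  rw [add_sub_cancel, R.Ex_Lo, R.Ex_Lo, smul_smul] at h2
  rw [mem_EK]
  have h3 : C2 * (1 + C1) * c = C2 * c * (1 + C1) := by ring
  rw [h3]
  exact h2

/-- products and inverses in `exp K` -/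
theorem exists_mul (R : RD D A) {C0 : ℝ} (hC0 : 0 ≤ C0) : ∃ C : ℝ, 0 ≤ C ∧ ∀ K : Set R.V,
    CSV R K C0 → ∀ x ∈ EK R K, ∀ c : ℝ, 0 ≤ c → c ≤ 1 → ∀ y ∈ EK R (c • K),
    x * y ∈ EK R ((1 + C * c) • K) ∧ y * x ∈ EK R ((1 + C * c) • K) := by
  obtain ⟨C, hC, H⟩ := qbchE R hC0
  refine ⟨C, hC, fun K hK x hx c hc0 hc1 y hy => ?_⟩
  obtain ⟨h1, h2, -⟩ := H K hK c hc0 hc1
  have hx' : R.Lo x ∈ (1 : ℝ) • K := by rw [one_smul]; exact hx
  constructor
  · have := hK.mem_add zero_le_one (by positivity) hx' (h1 x hx y hy)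
    rw [add_sub_cancel] at this
    exact this
  · have := hK.mem_add zero_le_one (by positivity) hx' (h2 x hx y hy)
    rw [add_sub_cancel] at this
    exact this

end split

/-- **KEY POINT 1 of 8195 (concrete form).** For natural boxes: let `G₃ ⊆ Gi + Go` be the generators
of the new window (`Gi` = letters of the enlarged ray, `Go` = all other letters) and `G` those of the
old window, `G₃ ⊆ t G`, `Go ⊆ s G` with `s t ^ m` small. Every `g ∈ exp (nb G₃)` is `n' * x'` with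
`x' ∈ exp (nb Gi)`, and for `x ∈ exp (c nb Gi)`: `x n' x⁻¹ ∈ exp ((C s t ^ m) nb G)`, and
`x x' ∈ exp (C nb Gi)`. -/
theorem key1 {N : Type u} [Group N] {d n : ℕ} {D : MB N d n} {A : Type v} [NormedRing A]
    [NormedAlgebra ℝ A] [FiniteDimensional ℝ A] (R : RD D A) {c : ℝ} (hc : 1 ≤ c) :
    ∃ C : ℝ, 1 ≤ C ∧ ∀ (G₃ Gi Go G : Set R.V), CSy G₃ → CSy Gi → CSy Go → CSy G →
      Gi ⊆ G₃ → Go ⊆ G₃ → G₃ ⊆ Gi + Go → ∀ t s : ℝ, 1 ≤ t → 0 ≤ s → G₃ ⊆ t • G → Go ⊆ s • G →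
      ∀ g ∈ EK R (nb G₃), ∃ n' x' : R.NR, g = n' * x' ∧ x' ∈ EK R (nb Gi) ∧
        n' ∈ EK R (C • mnb G₃ Go) ∧ ∀ x ∈ EK R (c • nb Gi),
          x * n' * x⁻¹ ∈ EK R ((C * (s * t ^ R.m)) • nb G) ∧ x * x' ∈ EK R (C • nb Gi) := by
  have hm1 : (1 : ℝ) ≤ R.m := by exact_mod_cast R.hm0
  set C0 : ℝ := (R.m : ℝ) * (R.m ^ 2 * 2 ^ R.m) with hC0
  have hC0n : 0 ≤ C0 := by positivity
  obtain ⟨C1, hC1, H1⟩ := exists_split R (C0 := C0) hC0n
  -- constants for the conjugation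
  set L : ℝ := c + C1 * R.m + 1 with hL
  have hLp : 1 ≤ L := by nlinarith [mul_nonneg hC1 (by linarith : (0 : ℝ) ≤ R.m)]
  obtain ⟨C2, hC2, H2⟩ := exists_conj R (C0 := L * (R.m ^ 2 * 2 ^ R.m)) (by positivity)
  obtain ⟨C3, hC3, H3⟩ := exists_mul R (C0 := L * (R.m ^ 2 * 2 ^ R.m)) (by positivity)
  refine ⟨1 + C1 * R.m + C2 * L + (1 + C3) * L, ?_, ?_⟩
  · have h1 : 0 ≤ C1 * R.m := by positivity
    have h2 : 0 ≤ C2 * L := by positivity
    have h3 : 0 ≤ (1 + C3) * L := by positivity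
    linarith
  intro G₃ Gi Go G hG₃ hGi hGo hG hi ho hsum t s ht hs hGt hGs g hg
  have hmn := cqv_mnb (R := R) hG₃ hGo ho
  have hnb := csv_nb (R := R) hG₃
  obtain ⟨v, hv, w, hw, hvw⟩ := nb_sub_add hG₃ hGo hi hsum hg
  have hvK : v ∈ nb G₃ := nb_mono hi hv
  -- split
  have h1 := H1 ((R.m : ℝ) • nb G₃) ((R.m : ℝ) • mnb G₃ Go) (hnb.smul (by positivity))
    (hmn.smul _) v (by
      have := hnb.mem_mono (a := 1) (b := R.m) zero_le_one hm1 (by rw [one_smul]; exact hvK)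
      exact this) 1 zero_le_one le_rfl w (by rw [one_smul]; exact hw)
  rw [mul_one, ← hvw, R.Ex_Lo, smul_smul] at h1
  have hCn : C1 * R.m ≤ 1 + C1 * R.m + C2 * L + (1 + C3) * L := by
    have h2 : 0 ≤ C2 * L := by positivity
    have h3 : 0 ≤ (1 + C3) * L := by positivity
    linarith
  refine ⟨g * (R.Ex v)⁻¹, R.Ex v, by group, by rw [mem_EK, R.Lo_Ex]; exact hv,
    hmn.mem_mono (by positivity) hCn h1, fun x hx => ⟨?_, ?_⟩⟩
  · have h2 := H2 (L • nb G₃) (L • mnb G₃ Go) (hnb.smul (by positivity)) (hmn.smul _) x (by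
        have h3 : R.Lo x ∈ c • nb G₃ := Set.smul_set_mono (nb_mono hi) hx
        exact hnb.mem_mono (by linarith) (by rw [hL]; nlinarith [mul_nonneg hC1 (by linarith : (0 : ℝ) ≤ R.m)]) h3) 1 zero_le_one le_rfl
        (g * (R.Ex v)⁻¹) (by
          rw [one_smul, mem_EK]
          exact hmn.mem_mono (by positivity) (by rw [hL]; linarith) h1)
    rw [mul_one, smul_smul, mem_EK] at h2
    have h4 := mnb_sub_smul hG ht hs hGt hGs
    have h5 : R.Lo (x * (g * (R.Ex v)⁻¹) * x⁻¹) ∈ ((C2 * L) * (s * t ^ R.m)) • nb G := by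
      rw [← smul_smul]
      exact Set.smul_set_mono h4 h2
    refine (csy_nb hG).mem_mono (by positivity) ?_ h5
    refine mul_le_mul_of_nonneg_right ?_ (by positivity)
    have h3 : 0 ≤ (1 + C3) * L := by positivity
    have h6 : 0 ≤ C1 * R.m := by positivity
    linarith
  · have hnbi := csv_nb (R := R) hGi
    have h2 := (H3 (L • nb Gi) (hnbi.smul (by positivity)) x (by
        exact hnbi.mem_mono (by linarith) (by rw [hL]; nlinarith [mul_nonneg hC1 (by linarith : (0 : ℝ) ≤ R.m)]) hx) 1 zero_le_one le_rfl (R.Ex v)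
        (by
          rw [one_smul, mem_EK, R.Lo_Ex]
          have := hnbi.mem_mono (a := 1) (b := L) zero_le_one hLp (by rw [one_smul]; exact hv)
          exact this)).1
    rw [mul_one, smul_smul, mem_EK] at h2
    refine hnbi.mem_mono (by positivity) ?_ h2
    have h3 : 0 ≤ C2 * L := by positivity
    have h6 : 0 ≤ C1 * R.m := by positivity
    linarith

end Vale.Agent.P188.H8
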