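import Mathlib.MeasureTheory.Group.Measure
import Mathlib.MeasureTheory.Measure.Prod
import Mathlib.Analysis.Normed.Module.Basic

/-!
# P188, route B (ES), block VOL, part 1: disjoint translates
-/

set_option linter.all false

open MeasureTheory Set
open scoped ENNReal

namespace Vale.Agent.P188.H8

/-- **V1**: pairwise disjoint right translates inside `A'`. -/
theorem card_mul_le {S : Type*} [Group S] [MeasurableSpace S] {μ : Measure S}
    (hμ : ∀ g : S, MeasurePreserving (fun x => x * g) μ μ) {A A' : Set S} (hA : MeasurableSet A)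
    {ι : Type*} (s : Finset ι) (x : ι → S) (hsub : ∀ k ∈ s, ∀ a ∈ A, a * x k ∈ A')
    (hdis : ∀ k ∈ s, ∀ l ∈ s, k ≠ l → ∀ a ∈ A, ∀ b ∈ A, a * x k ≠ b * x l) :
    (s.card : ℝ≥0∞) * μ A ≤ μ A' := by
  have h1 : ∀ k, μ ((fun z => z * (x k)⁻¹) ⁻¹' A) = μ A := fun k =>
    (hμ (x k)⁻¹).measure_preimage hA.nullMeasurableSet
  have h2 : μ (⋃ k ∈ s, (fun z => z * (x k)⁻¹) ⁻¹' A) =
      ∑ k ∈ s, μ ((fun z => z * (x k)⁻¹) ⁻¹' A) := by
    refine measure_biUnion_finset ?_ fun k _ => (hμ (x k)⁻¹).measurable hA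
    intro k hk l hl hkl
    rw [Function.onFun, Set.disjoint_left]
    intro z hz hz'
    exact hdis k hk l hl hkl _ hz _ hz' (by simp)
  calc (s.card : ℝ≥0∞) * μ A = ∑ k ∈ s, μ ((fun z => z * (x k)⁻¹) ⁻¹' A) := by
        rw [Finset.sum_congr rfl fun k _ => h1 k, Finset.sum_const, nsmul_eq_mul]
    _ = μ (⋃ k ∈ s, (fun z => z * (x k)⁻¹) ⁻¹' A) := h2.symm
    _ ≤ μ A' := by
        refine measure_mono ?_
        intro z hz
        obtain ⟨k, hk, hz⟩ := mem_iUnion₂.1 hz
        have := hsub k hk _ hz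
        simpa using this

/-- **V2**: a set on which a homomorphism-like function `D` is bounded by `L` has `m` disjoint
translates by powers of `X` if `D` increases by more than `2 L` under `X`. -/
theorem vol_ratio {S : Type*} [Group S] [MeasurableSpace S] {μ : Measure S}
    (hμ : ∀ g : S, MeasurePreserving (fun x => x * g) μ μ) {A A' : Set S} (hA : MeasurableSet A)
    {W : Type*} [SeminormedAddCommGroup W] [NormedSpace ℝ W] (D : S → W) (X : S) (d p : W)
    {L : ℝ} (m : ℕ)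
    (hD : ∀ a ∈ A, ∀ k < m, D (a * X ^ k) = D a + (k : ℝ) • d) (hL : ∀ a ∈ A, ‖D a - p‖ ≤ L)
    (hd : 2 * L < ‖d‖) (hsub : ∀ k < m, ∀ a ∈ A, a * X ^ k ∈ A') :
    (m : ℝ≥0∞) * μ A ≤ μ A' := by
  have h := card_mul_le hμ (A' := A') hA (Finset.range m) (fun k => X ^ k)
    (fun k hk a ha => hsub k (Finset.mem_range.1 hk) a ha) ?_
  · rwa [Finset.card_range] at h
  intro k hk l hl hkl a ha b hb hab
  have h1 := hD a ha k (Finset.mem_range.1 hk)
  have h2 := hD b hb l (Finset.mem_range.1 hl)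
  have hab : a * X ^ k = b * X ^ l := hab
  rw [hab, h2] at h1
  have h3 : ((k : ℝ) - l) • d = (D b - p) - (D a - p) := by
    rw [sub_smul]
    have : D b - D a = (k : ℝ) • d - (l : ℝ) • d := by
      rw [sub_eq_sub_iff_add_eq_add, h1, add_comm]
    rw [← this]
    abel
  have h4 : ‖((k : ℝ) - l) • d‖ ≤ 2 * L := by
    rw [h3]
    refine (norm_sub_le _ _).trans ?_
    linarith [hL a ha, hL b hb]
  rw [norm_smul] at h4
  have h5 : (1 : ℝ) ≤ ‖(k : ℝ) - l‖ := by
    rw [Real.norm_eq_abs]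
    have : (1 : ℤ) ≤ |(k : ℤ) - l| := Int.one_le_abs (by omega)
    have h6 : ((1 : ℤ) : ℝ) ≤ ((|(k : ℤ) - l| : ℤ) : ℝ) := by exact_mod_cast this
    simpa using h6
  have h6 : ‖d‖ ≤ ‖(k : ℝ) - l‖ * ‖d‖ := by
    nlinarith [norm_nonneg d]
  linarith

/-- conjugation preserves a bi-invariant measure -/
theorem measure_conj {S : Type*} [Group S] [MeasurableSpace S] {μ : Measure S}
    (hμ : ∀ g : S, MeasurePreserving (fun x => x * g) μ μ)
    (hμl : ∀ g : S, MeasurePreserving (fun x => g * x) μ μ) (g : S) {A : Set S}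
    (hA : MeasurableSet A) : μ {x | g * x * g⁻¹ ∈ A} = μ A :=
  ((hμ g⁻¹).comp (hμl g)).measure_preimage hA.nullMeasurableSet

end Vale.Agent.P188.H8
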